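import Vale.Agent.P097M.Defs

/-!
# P097W: moments relative to a weight (definitions and statements)

The loss `e` of a leaf is a free parameter (`e = C * u` in `LF`, `PP`), constants do not depend
on `C`.
-/

set_option linter.all false

noncomputable section

namespace Vale.Agent.P097W

open Filter Topology Set Metric
open Vale.Agent.P097T (Strip)
open Vale.Agent.P097Top (Cur law)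
open Vale.Agent.P097K (Lv Few)
open Vale.Agent.P097M

/-- the leaf of step `u` reaches the depth `e` -/
def Rch (θ H : ℂ → ℂ) (r u e : ℝ) : Prop := ∃ Y, Leaf θ H r u (r - e) Y

/-- the envelope at the depth `τ` with weight `a` -/
def En (R : ℝ → ℝ → Prop) (m : ℕ) (τ a : ℝ) : Prop :=
  ∀ L u : ℝ, 1 ≤ L → 0 < u → u * a * L ^ m ≤ τ → R u (2 * τ / L)

/-- a weight -/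
def Wt (a : ℝ → ℝ) : Prop := (∀ t, 1 ≤ a t) ∧ AntitoneOn a (Ioi 0)

/-- the envelope at all small depths -/
def Env (R : ℝ → ℝ → Prop) (m : ℕ) (τ₀ : ℝ) (a : ℝ → ℝ) : Prop :=
  Wt a ∧ ∀ τ, 0 < τ → τ ≤ τ₀ → En R m τ (a τ)

/-- all moments relative to the weights of a family, with one constant -/
def MomF (r : ℝ) (g Q : ℂ → ℂ) (F : Set (ℝ → ℝ)) : Prop := ∀ p : ℕ, ∃ C : ℝ, ∀ a ∈ F,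
  ∀ (k : ℕ) (l : ℝ), 1 ≤ l → Few r {y | y ∈ Strip r ∧
    l * a (r - |y.im|) ^ 2 ≤ Gs g Q y * (r - |y.im|) ^ 2} k (C / l ^ p)

def Spec_H2W : Prop := ∀ (r c τ₀ : ℝ) (θ H Q : ℂ → ℂ) (m : ℕ), Cur r c θ H Q → 1 ≤ m → 0 < τ₀ →
  MomF r (deriv θ) Q {a | Env (Rch θ H r) m τ₀ a}

/-- the sharp law for two short chords -/
def LawQ (r : ℝ) (g Q : ℂ → ℂ) (Lw : ℂ → ℂ → ℂ → Prop) (CL : ℝ) : Prop :=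
  ∀ (y a b : ℂ) (ρ G u : ℝ), Cm r g Q y ρ G → 0 < u → u * G ≤ 1 / 40 → ‖a - u‖ ≤ u / 4 →
    ‖b - u‖ ≤ u / 4 → Lw (y - a) y (y + b) →
    ‖deriv (E1 g Q) y‖ * u ^ 4 ≤ CL * (‖b - a‖ + G ^ 4 * u ^ 6 / ρ) ∧
      ‖b - a‖ ≤ CL * (‖deriv (E1 g Q) y‖ * u ^ 4 + G ^ 4 * u ^ 6 / ρ)

/-- the sharp law along a leaf -/
def LXQ (r : ℝ) (g Q : ℂ → ℂ) (C u : ℝ) (Y : ℂ → ℂ) (C₂ : ℝ) : Prop :=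
  ∀ (x : ℂ) (t ρ G : ℝ), t = r - x.im → t ≤ 2 * r / 3 → C * u ≤ t / 2 → u ≤ t / 8 →
    PP C u Y x ≤ t / 32 → Cm r g Q (Y x) ρ G → u * G ≤ 1 / 40 →
    ‖deriv (E1 g Q) (Y x)‖ ≤ C₂ * (PP C u Y x / (u ^ 2 * t ^ 2) + G ^ 4 * u ^ 2 / ρ) ∧
      ‖deriv (deriv Y) x‖ ≤
        C₂ * (u ^ 2 * ‖deriv (E1 g Q) (Y x)‖ + G ^ 4 * u ^ 4 / ρ + u ^ 2 * PP C u Y x / t ^ 4)

/-- the data in the tent -/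
structure TDq (r : ℝ) (g Q : ℂ → ℂ) (lam C₄ : ℝ) (n : ℕ) (ξ τ B u : ℝ) (P : ℂ → ℝ) : Prop where
  nn : ∀ y ∈ Tent r ξ τ (n ^ 2), 0 ≤ P y
  xi : ∀ y ∈ Tent r ξ τ (n ^ 2), ∀ ρ G : ℝ, Cm r g Q y ρ G → u * G ≤ 1 / 40 →
    ‖deriv (E1 g Q) y‖ ≤ C₄ * (P y / (u ^ 2 * (r - y.im) ^ 2) + G ^ 4 * u ^ 2 / ρ)
  up : ∀ y ∈ Tent r ξ τ (n ^ 2), P y * (r - y.im) ≤ C₄ * τ * B
  lo : ∀ y ∈ Tent r ξ τ (n ^ 2), ∀ η : ℝ, τ / (2 * n ^ 2) ≤ r - y.im →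
    |η - y.re| ≤ τ / (8 * n ^ 2) →
    P y * (τ / (2 * n ^ 2)) ≤ C₄ * (r - y.im) * P (pt r η (τ / (2 * n ^ 2)))
  sum : ∑ m ∈ Finset.range (n ^ 2), P (pt r (ξ + m * (lam * τ / n ^ 2)) (τ / (2 * n ^ 2))) ≤
    C₄ * n ^ 3 * B

/-- smallness of the step and of the loss -/
def Smq (c : ℝ) (n : ℕ) (τ M u e : ℝ) : Prop := 0 < u ∧ u ≤ e ∧ e * (n : ℝ) ^ 4 ≤ c * τ ∧
  u ^ 2 * M ^ 2 * (n : ℝ) ^ 4 ≤ c * τ ^ 2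

/-- tent data for all leaves -/
def TDB (r : ℝ) (g Q : ℂ → ℂ) (lam C₄ c₄ e₀ : ℝ) (R : ℝ → ℝ → Prop) : Prop :=
  ∀ (n : ℕ) (ξ τ M u e : ℝ), 1 ≤ n → 0 < τ → τ ≤ r / 4 → 1 ≤ M → Cone r g Q ξ τ M → e < e₀ →
    R u e → Smq c₄ n τ M u e → ∃ P, TDq r g Q lam C₄ n ξ τ (e + u ^ 2 * M ^ 2 / τ) u P

/-- a crude bound in the middle tent -/
def Crude (r : ℝ) (g Q : ℂ → ℂ) (n : ℕ) (ξ τ B : ℝ) : Prop := ∀ y : ℂ,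
  |y.re - ξ| ≤ 7 * τ / 16 → 3 * τ / (16 * n ^ 2) ≤ r - y.im → r - y.im ≤ 5 * τ / 4 →
    Gs g Q y * τ ^ 2 ≤ B

/-- the inequality for the children, for a family of weights -/
def CHF (r : ℝ) (g Q : ℂ → ℂ) (lam : ℝ) (F : Set (ℝ → ℝ)) : Prop := ∃ C₁ : ℝ, 1 ≤ C₁ ∧
  ∀ ε : ℝ, 0 < ε → ∃ (L : ℕ) (A τ₀ : ℝ), 1 ≤ L ∧ 0 < τ₀ ∧ ∀ a ∈ F, ∀ ξ τ M : ℝ, 0 < τ → τ ≤ τ₀ →
    A * a τ ≤ M → Cone r g Q ξ τ M → SupB r g Q (2 ^ L) ξ τ (C₁ * M ^ 2) ∧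
      SumB r g Q lam (2 ^ L) ξ τ (ε * 4 ^ L * M ^ 2)

/-! ## The rows -/

/-- 1601: the odd part of the slope function in a calm disc -/
def S_ODD : Prop := ∃ C : ℝ, 1 ≤ C ∧ ∀ (θ h Q : ℂ → ℂ) (c y s : ℂ) (r ρ G : ℝ),
  P097N.Cv θ h Q c (Strip r) → Cm r (deriv θ) Q y ρ G → G * ‖s‖ < 1 / 6 →
  ‖P097N.Ph θ h (y, y + s) + P097N.Ph θ h (y, y - s)‖ * ρ ≤ C * G ^ 2 * ‖s‖ ^ 4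

/-- 1602 -/
def S_LAWQ : Prop := ∃ CL : ℝ, 1 ≤ CL ∧ ∀ (r c : ℝ) (θ H Q : ℂ → ℂ), Cur r c θ H Q →
  LawQ r (deriv θ) Q (fun a b d => law θ H a b d = 0) CL

/-- 1603: the middle line -/
def S_BASEQ : Prop := ∀ r : ℝ, 0 < r → ∃ C' e₁ : ℝ, 1 ≤ C' ∧ 0 < e₁ ∧
  ∀ (θ H Y : ℂ → ℂ) (u C : ℝ), 0 < u → 1 ≤ C → C * u < e₁ → Leaf θ H r u (r - C * u) Y →
    LF r (C' * C) u (fun a b d => law θ H a b d = 0) Y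

/-- 1604 -/
def S_LXQ : Prop := ∀ CL : ℝ, 1 ≤ CL → ∃ C₂ : ℝ, 1 ≤ C₂ ∧
  ∀ (r C u : ℝ) (g Q Y : ℂ → ℂ) (Lw : ℂ → ℂ → ℂ → Prop), 0 < u → 0 ≤ C → LawQ r g Q Lw CL →
    LF r C u Lw Y → LXQ r g Q C u Y C₂

/-- 1605: the column -/
def S_COLQ : Prop := ∀ r C₂ : ℝ, 0 < r → 1 ≤ C₂ → ∃ C₃ c₃ : ℝ, 1 ≤ C₃ ∧ 0 < c₃ ∧
  ∀ (g Q Y : ℂ → ℂ) (Lw : ℂ → ℂ → ℂ → Prop) (C ξ τ M u : ℝ), GQ r g Q → LF r C u Lw Y →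
    LXQ r g Q C u Y C₂ → 0 < u → 1 ≤ C → 0 < τ → τ ≤ r / 4 → 1 ≤ M → Cone r g Q ξ τ M →
    C * u ≤ c₃ * τ → u ^ 2 * M ^ 2 ≤ c₃ * τ ^ 2 →
    ColB r Y ξ τ (C₃ * (C * u + u ^ 2 * M ^ 2 / τ))

/-- 1606: the tent -/
def S_TDQ : Prop := ∀ C₂ C₃ lam : ℝ, 1 ≤ C₂ → 1 ≤ C₃ → 0 < lam → lam ≤ 1 / 8 →
  ∃ C₄ c₄ : ℝ, 1 ≤ C₄ ∧ 0 < c₄ ∧ ∀ (r : ℝ) (g Q Y : ℂ → ℂ) (Lw : ℂ → ℂ → ℂ → Prop) (n : ℕ)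
    (C ξ τ M u : ℝ), LF r C u Lw Y → LXQ r g Q C u Y C₂ → 1 ≤ n → 0 < τ → τ ≤ r / 4 →
    Smq c₄ n τ M u (C * u) → ColB r Y ξ τ (C₃ * (C * u + u ^ 2 * M ^ 2 / τ)) →
    TDq r g Q lam C₄ n ξ τ (C * u + u ^ 2 * M ^ 2 / τ) u (PP C u Y)

/-- 1607: the crude maximum -/
def S_SUP0 : Prop := ∀ (C₄ c₄ : ℝ) (m n : ℕ), 1 ≤ C₄ → 0 < c₄ → 1 ≤ m → 1 ≤ n → ∃ A B : ℝ,
  ∀ (r lam e₀ ξ τ M a : ℝ) (g Q : ℂ → ℂ) (R : ℝ → ℝ → Prop), GQ r g Q →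
    TDB r g Q lam C₄ c₄ e₀ R → En R m τ a → 1 ≤ a → 0 < τ → τ ≤ r / 4 → 2 * τ < e₀ → A * a ≤ M →
    Cone r g Q ξ τ M → Crude r g Q n ξ τ (B * M ^ 2)

/-- 1608: the second pass -/
def S_SUP1 : Prop := ∀ C₄ c₄ : ℝ, 1 ≤ C₄ → 0 < c₄ → ∃ C₁ : ℝ, 1 ≤ C₁ ∧ ∀ (m n : ℕ) (B : ℝ),
  1 ≤ m → 1 ≤ n → ∃ A : ℝ,
  ∀ (r lam e₀ ξ τ M a : ℝ) (g Q : ℂ → ℂ) (R : ℝ → ℝ → Prop), GQ r g Q →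
    TDB r g Q lam C₄ c₄ e₀ R → En R m τ a → 1 ≤ a → 0 < τ → τ ≤ r / 4 → 2 * τ < e₀ → A * a ≤ M →
    Cone r g Q ξ τ M → Crude r g Q n ξ τ (B * M ^ 2) → SupB r g Q n ξ τ (C₁ * M ^ 2)

/-- 1609: the sum over the children -/
def S_SUMQ : Prop := ∀ (C₄ c₄ C₁ ε : ℝ) (m : ℕ), 1 ≤ C₄ → 0 < c₄ → 1 ≤ C₁ → 0 < ε → 1 ≤ m →
  ∃ (L : ℕ) (A : ℝ), 1 ≤ L ∧
  ∀ (r lam e₀ ξ τ M a : ℝ) (g Q : ℂ → ℂ) (R : ℝ → ℝ → Prop), GQ r g Q → 0 < lam → lam ≤ 1 / 8 →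
    TDB r g Q lam C₄ c₄ e₀ R → En R m τ a → 1 ≤ a → 0 < τ → τ ≤ r / 4 → 2 * τ < e₀ → A * a ≤ M →
    Cone r g Q ξ τ M → SupB r g Q (2 ^ L) ξ τ (C₁ * M ^ 2) →
    SumB r g Q lam (2 ^ L) ξ τ (ε * 4 ^ L * M ^ 2)

/-- 1610: the recursion for a family -/
def S_RECF : Prop := ∀ (F : Set (ℕ → ℤ → ℝ)) (b : ℕ → ℝ) (n₀ w : ℕ) (C₁ : ℝ),
  (∀ ν ∈ F, ∀ k i, 0 ≤ ν k i ∧ ν k i ≤ b k) →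
  (∀ ν ∈ F, ∀ (k : ℕ) (i : ℤ), ν k (i + n₀ * 2 ^ k) = ν k i) → 1 ≤ C₁ →
  (∀ ε : ℝ, 0 < ε → ∃ (L k₀ : ℕ) (A : ℝ), 1 ≤ L ∧ ∀ ν ∈ F, ∀ k : ℕ, k₀ ≤ k → ∀ (i : ℤ) (M : ℝ),
    A ≤ M → 0 ≤ M →
    (∀ j ≤ k, ∀ m : ℤ, |m| ≤ w → 2 * ν j (i / 2 ^ (k - j) + m) ^ 2 ≤ M ^ 4 * 2 ^ (k - j)) →
    (∀ m < 2 ^ L, ν (k + L) (i * 2 ^ L + (m : ℕ)) ≤ C₁ * M ^ 2) ∧
      ∑ m ∈ Finset.range (2 ^ L), ν (k + L) (i * 2 ^ L + (m : ℕ)) ≤ ε * 2 ^ L * M ^ 2) →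
  ∀ p : ℕ, ∃ C : ℝ, ∀ ν ∈ F, ∀ k : ℕ,
    ∑ i ∈ Finset.range (n₀ * 2 ^ k), ν k (i : ℕ) ^ (2 * p + 2) ≤ C * 2 ^ k

/-- 1611: boxes -/
def S_FINF : Prop := ∀ (r : ℝ) (g Q : ℂ → ℂ) (n₀ : ℕ) (F : Set (ℝ → ℝ)), GQ r g Q → 8 ≤ r * n₀ →
  (∀ a ∈ F, Wt a) → CHF r g Q (1 / (r * n₀)) F → MomF r g Q F

/-! ## Peaks and good translates -/

/-- a peak of the loss function -/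
def Peak (η : ℝ → ℝ) (u₀ : ℝ) (m : ℕ) (u : ℝ) : Prop := u ∈ Ioo 0 u₀ ∧ ∀ v ∈ Ioo 0 u₀,
  (u ≤ v → η v * u ≤ 2 * η u * v) ∧ (v ≤ u → η v ^ m * u ≤ (2 * η u) ^ m * v)

/-- the weight of the peak with step `u` and loss `d` -/
def wt (m : ℕ) (u d t : ℝ) : ℝ := d / u * max 1 (d / t) ^ (m - 1)

/-- 1612: peaks exist and give the envelope -/
def S_PEAK : Prop := ∀ (η : ℝ → ℝ) (u₀ : ℝ) (m : ℕ), 1 ≤ m → (∀ v ∈ Ioo 0 u₀, 0 ≤ η v) →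
  ((∃ C : ℝ, ∀ v ∈ Ioo 0 u₀, η v ^ m ≤ C * v) → (∀ Λ : ℝ, ∃ S ∈ Ioo 0 u₀, Λ * S < η S) →
    ∀ Λ : ℝ, ∃ u, Peak η u₀ m u ∧ Λ * u ≤ η u) ∧
  ∀ u, Peak η u₀ m u → u ≤ η u → Wt (wt m u (η u)) ∧ ∀ τ L v : ℝ, 0 < τ → 1 ≤ L →
    v ∈ Ioo 0 u₀ → v * wt m u (η u) τ * L ^ m ≤ τ → η v ≤ 2 * τ / L

/-- the bound in the window with centre `s` and unit `d` -/
def Good (r : ℝ) (g Q : ℂ → ℂ) (a : ℝ → ℝ) (d : ℝ) (j : ℕ) (M s : ℝ) : Prop := ∀ y : ℂ,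
  0 ≤ y.im → y.im < r → (Gs g Q y * (r - y.im) ^ 2 / a (r - y.im) ^ 2) ^ j ≤
    M * (max ((r - y.im) / d) (d / (r - y.im)) * (1 + |y.re - s| / (r - y.im))) ^ 2

/-- 1613: most translates are good -/
def S_GOOD : Prop := ∀ (r : ℝ) (g Q : ℂ → ℂ) (F : Set (ℝ → ℝ)), 0 < r → (∀ a ∈ F, Wt a) →
  MomF r g Q F → ∀ (j : ℕ) (ε : ℝ), 1 ≤ j → 0 < ε → ∃ M : ℝ, 1 ≤ M ∧ ∀ a ∈ F, ∀ d : ℝ, 0 < d →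
    ∃ B : Set ℝ, IsOpen B ∧ (∀ s, s + 1 ∈ B ↔ s ∈ B) ∧
      MeasureTheory.volume (B ∩ Ico 0 1) ≤ ENNReal.ofReal ε ∧ ∀ s ∉ B, Good r g Q a d j M s

theorem Smq.mono {c c' τ M u e : ℝ} {n : ℕ} (h : Smq c n τ M u e) (k : c ≤ c') (hτ : 0 < τ) :
    Smq c' n τ M u e :=
  ⟨h.1, h.2.1, h.2.2.1.trans (by gcongr), h.2.2.2.trans (by gcongr)⟩

end Vale.Agent.P097W
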