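import Vale.Agent.P097W.Defs
import Vale.Agent.P097M.Base

/-! # P097W: the middle line (row 1603) -/

set_option linter.all false

noncomputable section

namespace Vale.Agent.P097W

open Set Metric Complex
open Vale.Agent.P097T (Strip)
open Vale.Agent.P097M Vale.Agent.P097M.BaseL

theorem baseq (hP : S_POS) (hH : S_HAR) : S_BASEQ := by
  intro r hr
  obtain ⟨N, hN⟩ := exists_nat_ge (8 / r)
  have hN' : 1 ≤ N * (r / 8) := by
    rw [div_le_iff₀ hr] at hN
    linarith
  obtain ⟨K₀, hK₀⟩ : ∃ K : ℝ, K = 32 * 3 ^ N / r := ⟨_, rfl⟩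
  have K00 : 0 ≤ K₀ := by rw [hK₀]; positivity
  refine ⟨2 + K₀, r / 4, by linarith, by positivity, fun θ H Y u C hu hC hT L => ?_⟩
  obtain ⟨K, hK⟩ : ∃ K : ℝ, K = 16 * (3 ^ N * (C + 1)) / r := ⟨_, rfl⟩
  have K0 : 0 ≤ K := by rw [hK]; positivity
  have KK : K ≤ K₀ * C := by
    rw [hK, hK₀, div_mul_eq_mul_div]
    gcongr ?_ / _
    nlinarith [mul_le_mul_of_nonneg_left hC (show (0 : ℝ) ≤ 3 ^ N by positivity)]
  have big : (C + 1 + K) * u ≤ (2 + K₀) * C * u := by gcongr; linarith
  have Cu : 0 ≤ C * u := by positivity
  have le : C * u ≤ (C + 1 + K) * u := by gcongr; linarith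
  have sub : Strip (r - (2 + K₀) * C * u) ⊆ Strip (r - C * u) := fun z hz =>
    lt_of_lt_of_le (b := r - (2 + K₀) * C * u) hz (by linarith)
  have pos : ∀ x : ℂ, 0 ≤ x.im → x.im < r - C * u → (Y x - x).im ≤ C * u := fun x a b => by
    simpa using hP θ H Y r u _ L (by linarith) x a b
  refine ⟨L.d.mono sub, fun x a b => ?_, ?_, fun x hx => L.law x (sub hx)⟩
  · have := pos x a (by linarith)
    unfold PP
    linarith
  obtain ⟨f, hf⟩ : ∃ f : ℂ → ℂ, f = fun z => Y z - z := ⟨_, rfl⟩
  have df : DifferentiableOn ℂ f (Strip (r - C * u)) := hf ▸ L.d.sub differentiableOn_id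
  have bs : ∀ η, ∀ z ∈ ball (pt r η (r / 2)) (r / 4), 0 ≤ z.im ∧ z.im < r - C * u := by
    intro η z hz
    have := (abs_im_le_norm _).trans_lt (mem_ball_iff_norm.1 hz)
    rw [sub_im, pt_im, abs_lt] at this
    constructor <;> linarith
  have bs' : ∀ η, ball (pt r η (r / 2)) (r / 4) ⊆ Strip (r - C * u) := fun η z hz =>
    (abs_of_nonneg (bs η z hz).1).trans_lt (bs η z hz).2
  have re : ∀ z, (((C * u : ℝ) : ℂ) + I * f z).re = C * u - (f z).im := fun z => by
    simp [sub_eq_add_neg]
  have har := fun η => hH (fun z => ((C * u : ℝ) : ℂ) + I * f z) (pt r η (r / 2)) (r / 4)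
    (((df.mono (bs' η)).const_mul I).const_add _) fun z hz => by
      rw [re, hf, sub_nonneg]
      exact pos z (bs η z hz).1 (bs η z hz).2
  simp only [re] at har
  have at' : ∀ η, DifferentiableAt ℂ f (pt r η (r / 2)) := fun η =>
    (df.mono (bs' η)).differentiableAt (ball_mem_nhds _ (by positivity))
  have p0 : ∀ η, 0 ≤ C * u - (f (pt r η (r / 2))).im := fun η => by
    have := bs η _ (mem_ball_self (by positivity))
    rw [hf, sub_nonneg]
    exact pos _ this.1 this.2
  have ch := chain (P := fun η => C * u - (f (pt r η (r / 2))).im) (δ := r / 8) (fun a b e => by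
    have := (har b (pt r a (r / 2)) (by rw [mem_ball_iff_norm, norm_pt]; linarith)).1
    rw [norm_pt] at this
    have := p0 a
    have := p0 b
    show C * u - _ ≤ 3 * (C * u - _)
    nlinarith) N
  have mn := mean hr (by linarith) df (fun x hx => by simp only [hf, L.per x hx]; ring)
    (u := u) (fun x => by rw [hf]; exact L.near x)
  have co : Continuous fun x : ℝ => f (pt r x (r / 2)) := continuous_iff_continuousAt.2 fun x =>
    ContinuousAt.comp (f := fun x : ℝ => pt r x (r / 2)) (at' x).continuousAt (by
      simp only [pt_eq]; fun_prop)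
  have one : ∀ η x : ℝ, x ∈ Icc η (η + 1) → |η - x| ≤ 1 := fun η x hx =>
    abs_le.2 ⟨by linarith [hx.2], by linarith [hx.1]⟩
  have up : ∀ η, C * u - (f (pt r η (r / 2))).im ≤ 3 ^ N * (C + 1) * u := fun η => by
    have a := intervalIntegral.integral_mono_on (μ := MeasureTheory.volume) (a := η) (b := η + 1)
      (by linarith) intervalIntegrable_const
      (((continuous_const.sub (continuous_im.comp co)).const_mul (3 ^ N)).intervalIntegrable _ _)
      fun x hx => ch η x ((one η x hx).trans hN')
    simp only [Pi.sub_apply] at a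
    rw [intervalIntegral.integral_const_mul, intervalIntegral.integral_sub intervalIntegrable_const
      ((continuous_im.comp co).intervalIntegrable _ _)] at a
    have b := imCLM.intervalIntegral_comp_comm (co.intervalIntegrable (μ := MeasureTheory.volume)
      η (η + 1))
    simp only [imCLM_apply] at b
    simp only [Function.comp_def, b, intervalIntegral.integral_const, add_sub_cancel_left,
      one_smul] at a
    have c := neg_le_of_abs_le ((abs_im_le_norm _).trans (mn η))
    refine a.trans ?_
    rw [mul_assoc]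
    gcongr
    linarith
  have dr : ∀ η, ‖deriv f (pt r η (r / 2))‖ ≤ K * u := fun η => by
    have := norm_deriv_le_of_forall_mem_sphere_norm_le (f := fun z => f z - f (pt r η (r / 2)))
      (c := pt r η (r / 2)) (R := r / 8) (C := 2 * (3 ^ N * (C + 1) * u)) (by positivity)
      (((df.mono (bs' η)).sub_const _).diffContOnCl_ball (closedBall_subset_ball (by linarith)))
      fun z hz => by
        have e := mem_sphere_iff_norm.1 hz
        have k := (har η z (by rw [mem_ball_iff_norm, e]; linarith)).2.2
        rw [e, add_sub_add_left_eq_sub, ← mul_sub, norm_mul, norm_I, one_mul] at k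
        have := up η
        nlinarith
    rw [deriv_sub_const] at this
    refine this.trans_eq ?_
    rw [hK]
    field_simp
    ring
  have ln : ∀ z : ℂ, z.im = r / 2 → pt r z.re (r / 2) = z := fun z hz => by
    apply Complex.ext <;> simp [hz]
    ring
  intro η
  constructor
  · have a : ∀ x ∈ uIoc η (η + 1), ‖f (pt r η (r / 2)) - f (pt r x (r / 2))‖ ≤ K * u := by
      intro x hx
      rw [uIoc_of_le (by linarith)] at hx
      have := Convex.norm_image_sub_le_of_norm_deriv_le (s := {z : ℂ | z.im = r / 2})
        (fun z hz => ln z hz ▸ at' z.re) (fun z hz => ln z hz ▸ dr z.re)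
        (by simpa [← le_antisymm_iff, inter_def] using
          (convex_halfSpace_im_le (r / 2)).inter (convex_halfSpace_im_ge (r / 2)))
        (x := pt r x (r / 2)) (y := pt r η (r / 2)) (by simp; ring) (by simp; ring)
      rw [norm_pt] at this
      exact this.trans (mul_le_of_le_one_right (by positivity) (one η x (Ioc_subset_Icc_self hx)))
    have b := intervalIntegral.norm_integral_le_of_norm_le_const a
    rw [intervalIntegral.integral_sub intervalIntegrable_const (co.intervalIntegrable _ _)] at b
    simp only [intervalIntegral.integral_const, add_sub_cancel_left, one_smul, abs_one,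
      mul_one] at b
    have c := (norm_le_norm_sub_add _ _).trans (add_le_add b (mn η))
    rw [hf] at c
    linarith
  · have e : deriv f (pt r η (r / 2)) = deriv Y (pt r η (r / 2)) - 1 := by
      rw [hf]
      exact (((L.d.mono (bs' η)).differentiableAt
        (ball_mem_nhds _ (by positivity))).hasDerivAt.sub (hasDerivAt_id' _)).deriv
    have := dr η
    rw [← e]
    nlinarith

end Vale.Agent.P097W
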