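import Vale.Agent.P097W.Defs
import Vale.Agent.P097M.Col2

/-!
# P097W: the column (row 1605)
-/

set_option linter.all false

noncomputable section

namespace Vale.Agent.P097W

open Filter Topology Set Metric
open Vale.Agent.P097T (Strip)
open Vale.Agent.P097M Vale.Agent.P097M.Co2

namespace Colq

variable {r C C₂ ξ τ M u B e : ℝ} {g Q Y : ℂ → ℂ}

/-- the bound of the second derivative -/
theorem sec (D : GQ r g Q) (X : LXQ r g Q C u Y C₂) (C1 : 1 ≤ C₂) (C0 : 0 ≤ C) (u0 : 0 < u)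
    (τ0 : 0 < τ) (M1 : 1 ≤ M) (K : Cone r g Q ξ τ M) (e0 : 0 < e) (e1 : e ≤ 1 / 160)
    (hu : u ^ 2 * M ^ 2 ≤ e ^ 2 * τ ^ 2) (hB : C * u + B ≤ τ / 16) {η t : ℝ}
    (hη : |η - ξ| ≤ τ) (t1 : 2 * τ ≤ t) (t2 : t ≤ r / 2) (hy : ‖Y (pt r η t) - pt r η t‖ ≤ B) :
    ‖deriv (deriv Y) (pt r η t)‖ ≤ 144 * C₂ * u ^ 2 * M ^ 2 * R τ * R t ^ 5 +
      C₂ * u ^ 2 * (C * u + B) * R t ^ 8 := by
  have t0 : 0 < t := by linarith
  have a0 := R_pos τ0
  have q0 := R_pos t0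
  have qa := R_anti τ0 (show τ ≤ t by linarith)
  have ea := R_sq τ0
  have eq := R_sq t0
  have B0 : 0 ≤ B := (norm_nonneg _).trans hy
  have Cu : 0 ≤ C * u := by positivity
  have cm := calm τ0 M1 K hη t1 t2 (hy.trans (by linarith))
  have G2 : √(16 * M ^ 2 * R τ * R t ^ 3) ^ 2 = 16 * M ^ 2 * R τ * R t ^ 3 :=
    Real.sq_sqrt (by positivity)
  have G0 := Real.sqrt_nonneg (16 * M ^ 2 * R τ * R t ^ 3)
  generalize √(16 * M ^ 2 * R τ * R t ^ 3) = G at cm G2 G0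
  generalize R τ = a at *
  generalize R t = q at *
  have h3 : u ^ 2 * M ^ 2 * a ^ 4 ≤ e ^ 2 := by
    have := mul_le_mul_of_nonneg_right hu (show 0 ≤ a ^ 4 by positivity)
    rwa [show e ^ 2 * τ ^ 2 * a ^ 4 = e ^ 2 * (τ * a ^ 2) ^ 2 by ring, ea, one_pow, mul_one] at this
  have e2 : e ^ 2 ≤ (1 / 160) ^ 2 := by gcongr
  have uG2 : (u * G) ^ 2 ≤ (1 / 40) ^ 2 := by
    have : u ^ 2 * M ^ 2 * (a * q ^ 3) ≤ u ^ 2 * M ^ 2 * (a * a ^ 3) := by gcongr
    rw [mul_pow, G2]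
    linarith
  have uG : u * G ≤ 1 / 40 := lsq uG2 (by norm_num)
  have ut : u ≤ τ / 160 := by
    refine lsq ?_ (by positivity)
    have : u ^ 2 * 1 ≤ u ^ 2 * M ^ 2 := by gcongr; exact one_le_pow₀ M1
    linarith [mul_le_mul_of_nonneg_right e2 (sq_nonneg τ)]
  have P : PP C u Y (pt r η t) ≤ C * u + B := by
    have := (abs_le.1 ((Complex.abs_im_le_norm _).trans hy)).1
    unfold PP
    linarith
  have x2 := (X (pt r η t) t (t / 4) G (by simp) (by linarith) (by linarith) (by linarith)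
    (by linarith) cm uG).2
  have dE : ‖deriv (E1 g Q) (Y (pt r η t))‖ ≤ 8 * G ^ 2 * q ^ 2 := by
    have b : ∀ z ∈ ball (Y (pt r η t)) (t / 4), ‖E1 g Q z‖ ≤ G ^ 2 := fun z hz => by
      refine le_trans ((norm_add_le _ _).trans ?_) (cm.bd z hz)
      rw [norm_div, norm_pow, Gs]
      norm_num
      linarith [sq_nonneg ‖g z‖]
    have := Complex.norm_deriv_le_div_of_mapsTo_ball (f := E1 g Q) (R₂ := 2 * G ^ 2)
      (((D.dQ.add ((D.dg.pow 2).div_const 8)).mono cm.sub)) (fun z hz => mem_closedBall_iff_norm.2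
        ((norm_sub_le _ _).trans (by linarith [b z hz, b _ (mem_ball_self cm.pos)]))) cm.pos
    refine this.trans_eq ?_
    field_simp
    linear_combination (-8 * G ^ 2) * eq
  have g5 : G ^ 4 * u ^ 4 / (t / 4) ≤ u ^ 2 * G ^ 2 * q ^ 2 := by
    rw [div_le_iff₀ (by positivity), show u ^ 2 * G ^ 2 * q ^ 2 * (t / 4) =
      u ^ 2 * G ^ 2 * (t * q ^ 2) / 4 by ring, eq]
    linarith [mul_le_mul_of_nonneg_left uG2 (sq_nonneg (u * G)), sq_nonneg (u * G)]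
  have p4 : u ^ 2 * PP C u Y (pt r η t) / t ^ 4 ≤ u ^ 2 * (C * u + B) * q ^ 8 := by
    rw [div_le_iff₀ (by positivity), show u ^ 2 * (C * u + B) * q ^ 8 * t ^ 4 =
      u ^ 2 * (C * u + B) * (t * q ^ 2) ^ 4 by ring, eq, one_pow, mul_one]
    gcongr
  have d2 := mul_le_mul_of_nonneg_left dE (sq_nonneg u)
  refine x2.trans ((mul_le_mul_of_nonneg_left (add_le_add (add_le_add d2 g5) p4)
    (by linarith)).trans_eq ?_)
  rw [G2]
  ring

end Colq

theorem colq (hI : S_INT) : S_COLQ := by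
  intro r C₂ r0 C1
  obtain ⟨C₃, h3⟩ : ∃ C₃, C₃ = 2 * (2 + r + 288 * C₂) + 1 := ⟨_, rfl⟩
  have c3 : 1 ≤ C₃ := by linarith
  obtain ⟨e, he⟩ : ∃ e, e = 1 / (160 * (2 * C₃ + C₂ + 1)) := ⟨_, rfl⟩
  have e0 : 0 < e := by rw [he]; positivity
  have e1 : e * (160 * (2 * C₃ + C₂ + 1)) = 1 := by rw [he]; field_simp
  have eC3 : 0 ≤ e * C₃ := by positivity
  have eC2 : 0 ≤ e * C₂ := by positivity
  have e2 : e ≤ 1 / 160 := by linarith
  have e3 : e * C₂ * e ≤ 1 / 2 * 1 := mul_le_mul (by linarith) (by linarith) e0.le (by norm_num)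
  have e4 : e ^ 2 ≤ e := by nlinarith
  have b3 : e + 2 * (e * C₃) ≤ 1 / 16 := by linarith
  have q1 : 5 / 4 + r / 2 < 3 / 4 * C₃ := by linarith
  have q2 : 288 * C₂ ≤ 3 / 4 * C₃ := by linarith
  clear e1 he h3 eC3 eC2
  refine ⟨C₃, e ^ 2, c3, by positivity,
    fun g Q Y Lw C ξ τ M u D F X u0 C0 τ0 τr M1 K hC m2 η hη => ?_⟩
  have a0 := R_pos τ0
  have ea := R_sq τ0
  have m0 : u ^ 2 ≤ e ^ 2 * τ ^ 2 := le_trans (le_mul_of_one_le_right (sq_nonneg u)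
    (one_le_pow₀ M1)) m2
  have ue : C * u ≤ e * τ := hC.trans (by gcongr)
  obtain ⟨w, hw⟩ : ∃ w, w = u ^ 2 * M ^ 2 / τ := ⟨_, rfl⟩
  have w0 : 0 ≤ w := by rw [hw]; positivity
  have we : w ≤ e * τ := by
    rw [hw, div_le_iff₀ τ0]
    linarith [mul_le_mul_of_nonneg_right e4 (sq_nonneg τ)]
  have wa : u ^ 2 * M ^ 2 * R τ ^ 2 = w := by
    rw [hw, eq_div_iff τ0.ne']
    linear_combination u ^ 2 * M ^ 2 * ea
  rw [← hw]
  have hB : C * u + C₃ * (C * u + w) ≤ τ / 16 := by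
    have b2 : C₃ * (C * u + w) ≤ C₃ * (e * τ + e * τ) := by gcongr
    linarith [mul_le_mul_of_nonneg_right b3 τ0.le]
  have Cu : 0 < C * u := by positivity
  have B0 : 0 ≤ C₃ * (C * u + w) := by positivity
  have o : IsOpen (Strip (r - C * u)) := isOpen_lt (by fun_prop) continuous_const
  have cp : Continuous (pt r η) := by
    rw [show pt r η = fun s : ℝ => η + ((r : ℂ) - s) * Complex.I from funext (pt_eq r η)]
    fun_prop
  have big : (5 / 4 + r / 2) * (C * u) + 288 * C₂ * w < 3 / 4 * (C₃ * (C * u + w)) := by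
    linarith [mul_lt_mul_of_pos_right q1 Cu, mul_le_mul_of_nonneg_right q2 w0]
  refine down (f := fun t => ‖Y (pt r η t) - pt r η t‖) (b := r / 2) (by linarith)
    (fun t ht => ?_) ((F.base η).1.trans ?_) fun t ht H => ?_
  · exact ((ContinuousAt.comp (F.d.continuousOn.continuousAt (o.mem_nhds (mem
      (by linarith [ht.1, ht.2]) (by linarith [ht.1])))) cp.continuousAt).sub cp.continuousAt).norm
  · linarith [mul_nonneg r0.le Cu.le, mul_nonneg (show 0 ≤ C₂ by linarith) w0]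
  · have t0 : 0 < t := by linarith [ht.1]
    have q0 := R_pos t0
    have qa := R_anti τ0 (show τ ≤ t by linarith [ht.1])
    have T := twice hI F (K₁ := 144 * C₂ * u ^ 2 * M ^ 2 * R τ)
      (K₂ := C₂ * u ^ 2 * (C * u + C₃ * (C * u + w))) (by positivity) (by positivity) t0 ht.2
      (by linarith [ht.1]) fun s hs => Colq.sec D X C1 (by linarith) u0 τ0 M1 K e0 e2 m2 hB hη
        (ht.1.trans hs.1) hs.2 (H s hs)
    have T1 : 2 * (144 * C₂ * u ^ 2 * M ^ 2 * R τ) * R t ≤ 288 * C₂ * w := by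
      rw [← wa]
      have : 2 * (144 * C₂ * u ^ 2 * M ^ 2 * R τ) * R t ≤
        2 * (144 * C₂ * u ^ 2 * M ^ 2 * R τ) * R τ := by gcongr
      linarith
    have T2 : C₂ * u ^ 2 * R t ^ 4 ≤ 1 / 2 := by
      calc _ ≤ C₂ * (e ^ 2 * τ ^ 2) * R τ ^ 4 := by gcongr
        _ = e * C₂ * e * (τ * R τ ^ 2) ^ 2 := by ring
        _ ≤ 1 / 2 := by rw [ea]; linarith
    have T3 := mul_le_mul_of_nonneg_right T2 (add_nonneg Cu.le B0)
    exact T.trans_lt (by linarith)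

end Vale.Agent.P097W
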