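import Vale.Agent.P097W.Defs
import Vale.Agent.P097M.Fin

/-!
# P097W: from the inequality for the children to all moments, for a family of weights (boxes)
-/

set_option linter.all false

noncomputable section

namespace Vale.Agent.P097W

open Filter Topology Set Metric
open Vale.Agent.P097T (Strip)
open Vale.Agent.P097K (Lv Few)
open Vale.Agent.P097M
open Vale.Agent.P097M.Fin

namespace FinF

variable {r : ℝ} {n₀ : ℕ} {g Q : ℂ → ℂ} {ν : ℕ → ℤ → ℝ} {Y : ℕ → ℤ → ℂ}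

theorem G0 (y : ℂ) : 0 ≤ Gs g Q y * (r - y.im) ^ 2 := by unfold Gs; positivity

theorem per (h : GQ r g Q) (hn : 0 < n₀) (hY : ∀ k i, Y k i ∈ Bx r n₀ k i)
    (hM : ∀ k i, ∀ y ∈ Bx r n₀ k i, Gs g Q y * (r - y.im) ^ 2 ≤ ν k i)
    (hν : ∀ k i, ν k i = Gs g Q (Y k i) * (r - (Y k i).im) ^ 2) (k : ℕ) (i : ℤ) :
    ν k (i + n₀ * 2 ^ k) = ν k i := by
  have hr := h.rpos
  have e : ((i + n₀ * 2 ^ k : ℤ) : ℝ) * hh n₀ k = i * hh n₀ k + 1 := by
    push_cast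
    rw [add_mul, hh_one hn]
  apply le_antisymm
  · have m : Y k (i + n₀ * 2 ^ k) - 1 ∈ Bx r n₀ k i := by
      obtain ⟨a, b⟩ := hY k (i + n₀ * 2 ^ k)
      rw [e] at b
      refine ⟨by simpa using a, ?_⟩
      rw [Complex.sub_re, Complex.one_re, sub_sub, add_comm (1 : ℝ)]
      exact b
    have := hM k i _ m
    rw [← h.per _ (bx_sub hr m), sub_add_cancel] at this
    rw [hν k (i + _)]
    simpa using this
  · have m : Y k i + 1 ∈ Bx r n₀ k (i + n₀ * 2 ^ k) := by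
      obtain ⟨a, b⟩ := hY k i
      refine ⟨by simpa using a, ?_⟩
      rw [e, Complex.add_re, Complex.one_re, add_sub_add_right_eq_sub]
      exact b
    have := hM k _ _ m
    rw [h.per _ (bx_sub hr (hY k i))] at this
    rw [hν k i]
    simpa using this

theorem red (hn : 0 < n₀) (k : ℕ) (f : ℤ → ℝ) (hper : ∀ i, f (i + n₀ * 2 ^ k) = f i) (i' : ℤ) :
    ∃ i : ℕ, i < n₀ * 2 ^ k ∧ f i' = f i ∧ (i : ℤ) + i' / (n₀ * 2 ^ k) * (n₀ * 2 ^ k) = i' := by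
  have N0 : (0 : ℤ) < n₀ * 2 ^ k := by positivity
  have b2 := Int.emod_nonneg i' N0.ne'
  have b3 := Int.emod_lt_of_pos i' N0
  have b4 := Int.emod_add_ediv_mul i' (n₀ * 2 ^ k)
  have b5 := Function.Periodic.int_mul (f := f) hper (i' / (n₀ * 2 ^ k)) (i' % (n₀ * 2 ^ k))
  rw [Int.cast_id, b4] at b5
  obtain ⟨i, hi⟩ := Int.eq_ofNat_of_zero_le b2
  rw [hi] at b3 b4 b5
  exact ⟨i, by exact_mod_cast b3, b5, b4⟩

theorem cone (hr : 0 < r) (hn : 0 < n₀)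
    (hM : ∀ k i, ∀ y ∈ Bx r n₀ k i, Gs g Q y * (r - y.im) ^ 2 ≤ ν k i) (k : ℕ) (i : ℤ) (M : ℝ)
    (hc : ∀ j ≤ k, ∀ m : ℤ, |m| ≤ (⌈2 * (r * n₀) + 2⌉₊ : ℕ) →
      2 * ν j (i / 2 ^ (k - j) + m) ^ 2 ≤ M ^ 4 * 2 ^ (k - j)) :
    Cone r g Q (i * hh n₀ k) (r * (1 / 2) ^ k) M := by
  have τ0 : 0 < r * (1 / 2 : ℝ) ^ k := by positivity
  intro y y1 y2 y3
  obtain ⟨j, j1, j2⟩ := exists_nat_pow_near_of_lt_one (x := (r - y.im) / r)
    (y := (1 / 2 : ℝ)) (div_pos (by linarith) hr) ((div_le_one hr).2 (by linarith))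
    (by norm_num) (by norm_num)
  rw [lt_div_iff₀' hr] at j1
  rw [div_le_iff₀' hr] at j2
  have jk : j ≤ k := by
    have := le_of_mul_le_mul_left (y1.trans j2) hr
    exact (pow_le_pow_iff_right_of_lt_one₀ (by norm_num) (by norm_num)).1 this
  obtain ⟨d, rfl⟩ := Nat.exists_eq_add_of_le jk
  obtain ⟨i', hi'⟩ := bx_round hn j1.le j2
  have h0 := hh_pos hn j
  have h1 := hh_pos hn (j + d)
  have e1 := hh_add n₀ j d
  have hw : |i' - i / 2 ^ d| ≤ (⌈2 * (r * n₀) + 2⌉₊ : ℕ) := by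
    have p2 : (0 : ℤ) < 2 ^ d := by positivity
    have a1 : ((i / 2 ^ d : ℤ) : ℝ) * 2 ^ d ≤ i := by
      exact_mod_cast Int.ediv_mul_le i p2.ne'
    have a2 : (i : ℝ) < ((i / 2 ^ d : ℤ) + 1) * 2 ^ d := by
      exact_mod_cast Int.lt_ediv_add_one_mul_self i p2
    have a3 : ((i / 2 ^ d : ℤ) : ℝ) * hh n₀ j ≤ i * hh n₀ (j + d) := by
      rw [← e1]; nlinarith
    have a4 : i * hh n₀ (j + d) ≤ ((i / 2 ^ d : ℤ) + 1) * hh n₀ j := by
      rw [← e1]; nlinarith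
    have a5 : r * (1 / 2) ^ j = r * n₀ * hh n₀ j := by unfold hh; field_simp
    have a6 := abs_le.1 hi'.2
    have a7 := abs_le.1 y3
    have a8 : |((i' - i / 2 ^ d : ℤ) : ℝ)| ≤ 2 * (r * n₀) + 2 := by
      rw [Int.cast_sub, abs_le]
      constructor <;> refine le_of_mul_le_mul_right ?_ h0 <;> linarith
    exact_mod_cast a8.trans (Nat.le_ceil _)
  have b1 := hc j jk _ hw
  rw [Nat.add_sub_cancel_left, add_sub_cancel] at b1
  have b2 := pow_le_pow_left₀ (G0 y) (hM j i' y hi') 2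
  have b3 : (2 : ℝ) ^ d * (r * (1 / 2) ^ (j + d)) = 2 * (r * (1 / 2) ^ (j + 1)) := by
    have : (1 / 2 : ℝ) ^ d * 2 ^ d = 1 := by rw [← mul_pow]; norm_num
    rw [pow_add, pow_succ]
    linear_combination r * (1 / 2 : ℝ) ^ j * this
  have b4 : 0 ≤ M ^ 4 := by positivity
  have b5 := mul_le_mul_of_nonneg_right ((mul_le_mul_of_nonneg_left b2 two_pos.le).trans b1)
    τ0.le
  rw [mul_assoc (M ^ 4), b3] at b5
  nlinarith

theorem kids (hr : 0 < r) (hn : 0 < n₀) (h8 : 8 ≤ r * n₀) (hY : ∀ k i, Y k i ∈ Bx r n₀ k i)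
    (hν : ∀ k i, ν k i = Gs g Q (Y k i) * (r - (Y k i).im) ^ 2) (k L : ℕ) (i : ℤ) (B₁ B₂ : ℝ)
    (s1 : SupB r g Q (2 ^ L) (i * hh n₀ k) (r * (1 / 2) ^ k) B₁)
    (s2 : SumB r g Q (1 / (r * n₀)) (2 ^ L) (i * hh n₀ k) (r * (1 / 2) ^ k) B₂) :
    (∀ m < 2 ^ (2 * L), ν (k + 2 * L) (i * 2 ^ (2 * L) + (m : ℕ)) ≤ B₁) ∧
      ∑ m ∈ Finset.range (2 ^ (2 * L)), ν (k + 2 * L) (i * 2 ^ (2 * L) + (m : ℕ)) ≤ B₂ := by
  have τ0 : 0 < r * (1 / 2 : ℝ) ^ k := by positivity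
  have n2 : (((2 ^ L : ℕ) : ℝ)) ^ 2 = 2 ^ (2 * L) := by push_cast; ring
  have n1 : (1 : ℝ) ≤ 2 ^ (2 * L) := one_le_pow₀ (by norm_num)
  have e1 := hh_add n₀ k (2 * L)
  have e2 : 1 / (r * n₀) * (r * (1 / 2) ^ k) / 2 ^ (2 * L) = hh n₀ (k + 2 * L) := by
    rw [div_eq_iff (by positivity), e1, hh]
    field_simp
  have e3 : r * (1 / 2 : ℝ) ^ k / 2 ^ (2 * L) = r * (1 / 2) ^ (k + 2 * L) := by
    rw [pow_add, one_div_pow 2 (2 * L)]
    field_simp
  have key : ∀ m : ℕ, r * (1 / 2) ^ k / (2 * 2 ^ (2 * L)) ≤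
      r - (Y (k + 2 * L) (i * 2 ^ (2 * L) + m)).im ∧
      r - (Y (k + 2 * L) (i * 2 ^ (2 * L) + m)).im ≤ r * (1 / 2) ^ k / 2 ^ (2 * L) ∧
      |(Y (k + 2 * L) (i * 2 ^ (2 * L) + m)).re - (i * hh n₀ k + m * hh n₀ (k + 2 * L))| ≤
        hh n₀ (k + 2 * L) := by
    intro m
    obtain ⟨⟨a, b⟩, c⟩ := hY (k + 2 * L) (i * 2 ^ (2 * L) + m)
    refine ⟨?_, by rwa [e3], ?_⟩
    · rw [mul_comm (2 : ℝ), ← div_div, e3]
      rw [pow_succ] at a
      linarith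
    · rw [← e1]
      push_cast at c
      rwa [add_mul, mul_assoc, mul_comm _ (hh n₀ (k + 2 * L))] at c
  constructor
  · intro m hm
    obtain ⟨a, b, c⟩ := key m
    have h1 := hh_pos hn (k + 2 * L)
    have m1 : (m : ℝ) + 1 ≤ 2 ^ (2 * L) := by exact_mod_cast hm
    have m0 : (0 : ℝ) ≤ m := Nat.cast_nonneg m
    have a5 : r * (1 / 2) ^ k = r * n₀ * hh n₀ k := by unfold hh; field_simp
    have h0 := hh_pos hn k
    rw [hν]
    refine s1 _ ?_ ?_ ?_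
    · rw [abs_le] at c ⊢
      constructor <;> nlinarith
    · rw [n2]
      refine le_trans ?_ a
      gcongr
      norm_num
    · linarith [div_le_self τ0.le n1]
  · have := s2 (fun m => Y (k + 2 * L) (i * 2 ^ (2 * L) + m)) fun m _ => by
      rw [n2, e2]
      exact key m
    rw [← pow_mul, mul_comm L] at this
    simpa only [hν] using this

end FinF

open FinF

theorem finf (hR : S_RECF) : S_FINF := by
  intro r g Q n₀ F h h8 hW ⟨C₁, hC₁, hCH⟩ p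
  classical
  have hr := h.rpos
  have hn : 0 < n₀ := Nat.pos_of_ne_zero fun e => by
    rw [e] at h8
    norm_num at h8
  have hn' : (1 : ℝ) ≤ n₀ := by exact_mod_cast hn
  choose Y hY hM using exists_max h hn
  obtain ⟨ν, hν⟩ : ∃ ν : ℕ → ℤ → ℝ, ∀ k i, ν k i = Gs g Q (Y k i) * (r - (Y k i).im) ^ 2 :=
    ⟨_, fun _ _ => rfl⟩
  simp only [← hν] at hM
  have hper := per h hn hY hM hν
  have ν0 : ∀ k i, 0 ≤ ν k i := fun k i => by rw [hν]; exact G0 _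
  have τp : ∀ k : ℕ, 0 < r * (1 / 2 : ℝ) ^ k := fun k => by positivity
  have τm : ∀ j k : ℕ, j ≤ k → r * (1 / 2 : ℝ) ^ k ≤ r * (1 / 2) ^ j := fun j k jk =>
    mul_le_mul_of_nonneg_left
      (pow_le_pow_of_le_one (a := (1 / 2 : ℝ)) (by norm_num) (by norm_num) jk) hr.le
  have amono : ∀ a ∈ F, ∀ j k : ℕ, j ≤ k → a (r * (1 / 2) ^ j) ≤ a (r * (1 / 2) ^ k) :=
    fun a ha j k jk => (hW a ha).2 (τp k) (τp j) (τm j k jk)
  obtain ⟨C, hC⟩ := hR ((fun (a : ℝ → ℝ) (k : ℕ) (i : ℤ) => ν k i / a (r * (1 / 2) ^ k) ^ 2) '' F)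
    (fun k => ∑ i ∈ Finset.range (n₀ * 2 ^ k), ν k (i : ℕ)) n₀ ⌈2 * (r * n₀) + 2⌉₊ C₁
    (by
      rintro _ ⟨a, ha, rfl⟩ k i'
      have a1 := (hW a ha).1 (r * (1 / 2) ^ k)
      refine ⟨div_nonneg (ν0 _ _) (sq_nonneg _), (div_le_self (ν0 _ _) (one_le_pow₀ a1)).trans ?_⟩
      obtain ⟨i, i1, i2, -⟩ := red hn k (ν k) (hper k) i'
      rw [i2]
      exact Finset.single_le_sum (f := fun i : ℕ => ν k i) (fun j _ => ν0 _ _)
        (Finset.mem_range.2 i1))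
    (by
      rintro _ ⟨a, ha, rfl⟩ k i
      simp only [hper]) hC₁
    (fun ε hε => by
      obtain ⟨L, A, τ₀, hL, hτ₀, H⟩ := hCH ε hε
      obtain ⟨k₀, hk₀⟩ := exists_pow_lt_of_lt_one (div_pos hτ₀ hr) (by norm_num : (1 / 2 : ℝ) < 1)
      refine ⟨2 * L, k₀, A, by omega, ?_⟩
      rintro _ ⟨a, ha, rfl⟩ k hk i M hA hM0 hc
      have τ0 := τp k
      obtain ⟨α, hα⟩ : ∃ α, α = a (r * (1 / 2) ^ k) := ⟨_, rfl⟩
      have α1 : 1 ≤ α := hα ▸ (hW a ha).1 _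
      have α0 : 0 < α := by linarith
      have τ1 : r * (1 / 2 : ℝ) ^ k ≤ τ₀ := by
        rw [lt_div_iff₀' hr] at hk₀
        exact (τm _ _ hk).trans hk₀.le
      have cn := cone hr hn hM k i (M * α) fun j jk m hm => by
        have b0 := hc j jk m hm
        have c1 := (hW a ha).1 (r * (1 / 2) ^ j)
        have c2 : a (r * (1 / 2) ^ j) ≤ α := hα ▸ amono a ha j _ jk
        have c3 : (a (r * (1 / 2) ^ j) ^ 2) ^ 2 ≤ α ^ 4 := by
          rw [← pow_mul]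
          exact pow_le_pow_left₀ (by linarith) c2 4
        simp only [] at b0
        rw [div_pow, ← mul_div_assoc, div_le_iff₀ (by positivity)] at b0
        refine b0.trans ?_
        rw [mul_pow, mul_right_comm (M ^ 4)]
        exact mul_le_mul_of_nonneg_right (mul_le_mul_of_nonneg_left c3 (pow_nonneg hM0 4))
          (by positivity)
      obtain ⟨s1, s2⟩ := H a ha _ _ (M * α) τ0 τ1
        (by rw [← hα]; exact mul_le_mul_of_nonneg_right hA α0.le) cn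
      obtain ⟨t1, t2⟩ := kids hr hn h8 hY hν k L i _ _ s1 s2
      have αm : α ^ 2 ≤ a (r * (1 / 2) ^ (k + 2 * L)) ^ 2 :=
        pow_le_pow_left₀ α0.le (hα ▸ amono a ha k _ (Nat.le_add_right _ _)) 2
      have α2 : 0 < α ^ 2 := by positivity
      constructor
      · intro m hm
        refine (div_le_div_of_nonneg_left (ν0 _ _) α2 αm).trans ?_
        rw [div_le_iff₀ α2, mul_assoc, ← mul_pow]
        exact t1 m hm
      · simp only []
        rw [← Finset.sum_div]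
        refine (div_le_div_of_nonneg_left (Finset.sum_nonneg fun _ _ => ν0 _ _) α2 αm).trans ?_
        rw [div_le_iff₀ α2, mul_assoc, ← mul_pow,
          ← show (4 : ℝ) ^ L = 2 ^ (2 * L) by rw [pow_mul]; norm_num]
        exact t2) p
  refine ⟨C, fun a ha k l hl => ?_⟩
  replace hC := hC _ ⟨a, ha, rfl⟩ k
  obtain ⟨α, hα⟩ : ∃ α, α = a (r * (1 / 2) ^ k) := ⟨_, rfl⟩
  have α1 : 1 ≤ α := hα ▸ (hW a ha).1 _
  simp only [← hα] at hC
  let J := (Finset.range (n₀ * 2 ^ k)).filter fun i : ℕ => l ≤ ν k i / α ^ 2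
  refine ⟨J.image fun i : ℕ => i * hh n₀ k, ?_, fun y hy hv => ?_⟩
  · have a1 : (J.card : ℝ) * l ^ p ≤ C * 2 ^ k := by
      refine le_trans ?_ hC
      rw [← nsmul_eq_mul]
      refine (Finset.card_nsmul_le_sum J (fun i : ℕ => (ν k i / α ^ 2) ^ (2 * p + 2)) _
        fun i hi => ?_).trans
        (Finset.sum_le_sum_of_subset_of_nonneg (Finset.filter_subset _ _) fun i _ _ =>
          pow_nonneg (div_nonneg (ν0 _ _) (sq_nonneg _)) _)
      exact (pow_le_pow_right₀ hl (by omega)).trans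
        (pow_le_pow_left₀ (by linarith) (Finset.mem_filter.1 hi).2 _)
    have a2 : ((J.image fun i : ℕ => i * hh n₀ k).card : ℝ) ≤ J.card :=
      Nat.cast_le.2 Finset.card_image_le
    have a3 : (0 : ℝ) < l ^ p := by positivity
    rw [le_div_iff₀ a3, one_div_pow, mul_one_div, div_mul_eq_mul_div, div_le_iff₀ (by positivity)]
    exact (mul_le_mul_of_nonneg_right a2 a3.le).trans a1
  · obtain ⟨y', e1, e2, e3⟩ : ∃ y' : ℂ, y'.re = y.re ∧ y'.im = |y.im| ∧ Gs g Q y' = Gs g Q y := by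
      rcases le_total 0 y.im with e | e
      · exact ⟨y, rfl, (abs_of_nonneg e).symm, rfl⟩
      · exact ⟨(starRingEnd ℂ) y, rfl, by rw [abs_of_nonpos e, Complex.conj_im], h.sym y hy.1⟩
    obtain ⟨i', hi'⟩ := bx_round (k := k) (r := r) (y := y') hn (by rw [e2]; exact hv.1.le)
      (by rw [e2]; exact hv.2)
    have b1 := hM k i' y' hi'
    rw [e2, e3] at b1
    obtain ⟨i, b3, b5, b4⟩ := red hn k (ν k) (hper k) i'
    have c1 : α ≤ a (r - |y.im|) := by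
      rw [hα]
      exact (hW a ha).2 ((τp (k + 1)).trans hv.1) (τp k) hv.2
    have c2 : l ≤ ν k i / α ^ 2 := by
      rw [le_div_iff₀ (by positivity), ← b5]
      refine le_trans ?_ (hy.2.trans b1)
      exact mul_le_mul_of_nonneg_left (pow_le_pow_left₀ (by linarith) c1 2) (by linarith)
    refine ⟨i * hh n₀ k, Finset.mem_image.2 ⟨i, Finset.mem_filter.2 ⟨Finset.mem_range.2 b3, c2⟩,
      rfl⟩, i' / (n₀ * 2 ^ k), ?_⟩
    have b6 : (i' : ℝ) * hh n₀ k = i * hh n₀ k + (i' / (n₀ * 2 ^ k) : ℤ) := by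
      have := congrArg (Int.cast : ℤ → ℝ) b4
      rw [Int.cast_add, Int.cast_mul] at this
      rw [← this, add_mul, mul_assoc]
      push_cast
      rw [hh_one hn, mul_one]
    have b7 := hi'.2
    rw [e1, b6, add_comm, ← sub_sub] at b7
    exact b7.trans (div_le_self (by positivity) hn')

end Vale.Agent.P097W
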