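import Vale.Agent.P097W.Defs

/-!
# P097W, row 1613: most translates are good
-/

set_option linter.all false

noncomputable section

namespace Vale.Agent.P097W

open Filter Topology Set Metric MeasureTheory
open Vale.Agent.P097T (Strip)
open Vale.Agent.P097K (Lv Few)
open Vale.Agent.P097M

namespace GoodH

/-- a periodic family of intervals -/
theorem per (x R : ℝ) :
    volume ((⋃ m : ℤ, ball (x + m) R) ∩ Ico (0 : ℝ) 1) ≤ ENNReal.ofReal (2 * R) := by
  rw [iUnion_inter]
  refine (measure_iUnion_le _).trans ?_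
  have e : ∀ m : ℤ, volume (ball (x + m) R ∩ Ico (0 : ℝ) 1) =
      volume (ball x R ∩ Ico ((-m : ℤ) : ℝ) ((-m : ℤ) + 1)) := fun m => by
    rw [← measure_preimage_add_right volume (m : ℝ) (ball (x + m) R ∩ Ico (0 : ℝ) 1)]
    refine congrArg volume (Set.ext fun z => ?_)
    simp only [mem_preimage, mem_inter_iff, mem_ball, dist_add_right, mem_Ico, Int.cast_neg]
    constructor
    · rintro ⟨a, b, c⟩
      exact ⟨a, by linarith, by linarith⟩
    · rintro ⟨a, b, c⟩
      exact ⟨a, by linarith, by linarith⟩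
  simp only [e]
  refine (tsum_meas_le_meas_iUnion_of_disjoint volume
    (fun m => measurableSet_ball.inter measurableSet_Ico) fun i j hij => ?_).trans ?_
  · exact ((pairwise_disjoint_Ico_intCast ℝ) (neg_injective.ne hij)).mono inter_subset_right
      inter_subset_right
  · rw [← Real.volume_ball x R]
    exact measure_mono (iUnion_subset fun m => inter_subset_left)

/-- a countable union -/
theorem cov {S : ℕ → Set ℝ} {T : Set ℝ} {f : ℕ → ℝ} {c : ℝ} (h0 : ∀ n, 0 ≤ f n)
    (h : ∀ n, volume (S n ∩ T) ≤ ENNReal.ofReal (f n))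
    (hc : ∀ n, ∑ i ∈ Finset.range n, f i ≤ c) :
    volume ((⋃ n, S n) ∩ T) ≤ ENNReal.ofReal c := by
  rw [iUnion_inter]
  refine (measure_iUnion_le _).trans ((ENNReal.tsum_le_tsum h).trans ?_)
  refine ENNReal.tsum_le_of_sum_range_le fun n => ?_
  rw [← ENNReal.ofReal_sum_of_nonneg fun i _ => h0 i]
  exact ENNReal.ofReal_le_ofReal (hc n)

/-- a finite union of periodic families -/
theorem fin (I : Finset ℝ) (R : ℝ) :
    volume ((⋃ x ∈ I, ⋃ m : ℤ, ball (x + m) R) ∩ Ico (0 : ℝ) 1) ≤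
      ENNReal.ofReal (I.card * (2 * R)) := by
  rw [iUnion₂_inter]
  refine (measure_biUnion_finset_le I _).trans
    ((Finset.sum_le_sum fun x _ => per x R).trans (le_of_eq ?_))
  rw [Finset.sum_const, nsmul_eq_mul, ENNReal.ofReal_mul (Nat.cast_nonneg _),
    ENNReal.ofReal_natCast]

/-- the weight of a level -/
def vv (q : ℝ) : ℝ := (q + 1) * (q + 2) / (24 * q)

theorem vv_ge {q : ℝ} (h : 0 < q) : 1 / 8 ≤ vv q := by
  rw [vv, le_div_iff₀ (by positivity)]
  nlinarith

theorem vv_inv {q : ℝ} (h : 0 < q) :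
    1 / vv q = 24 * (q / (q + 1) - (q * (1 / 2)) / (q * (1 / 2) + 1)) := by
  rw [vv]
  field_simp
  ring

theorem vv_le {q t d : ℝ} (hd : 0 < d) (hq : 0 < q) (h1 : q * d / 2 < t) (h2 : t ≤ q * d) :
    vv q ≤ max (t / d) (d / t) ^ 2 := by
  have t0 : 0 < t := lt_trans (by positivity) h1
  rcases le_total q 1 with e | e
  · have a1 : 1 / q ≤ max (t / d) (d / t) := by
      refine le_trans ?_ (le_max_right _ _)
      rw [div_le_div_iff₀ hq t0]
      linarith
    refine le_trans ?_ (pow_le_pow_left₀ (by positivity) a1 2)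
    rw [vv, div_pow, div_le_div_iff₀ (by positivity) (by positivity)]
    have a2 : (q + 1) * (q + 2) ≤ 6 := by nlinarith
    have a3 : q ^ 2 ≤ q := by nlinarith
    have a4 := mul_le_mul a2 a3 (by positivity) (by norm_num)
    linarith
  · have a1 : q / 2 ≤ max (t / d) (d / t) := by
      refine le_trans ?_ (le_max_left _ _)
      rw [le_div_iff₀ hd]
      linarith
    refine le_trans ?_ (pow_le_pow_left₀ (by positivity) a1 2)
    rw [vv, div_le_iff₀ (by positivity)]
    have a2 : (q + 1) * (q + 2) ≤ 6 * q ^ 2 := by nlinarith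
    have a3 : q ^ 2 * 1 ≤ q ^ 2 * q := mul_le_mul_of_nonneg_left e (by positivity)
    nlinarith

theorem vv_sum {z : ℝ} (hz : 0 < z) (n : ℕ) :
    ∑ k ∈ Finset.range n, 1 / vv (z * (1 / 2) ^ k) ≤ 24 := by
  have e : ∀ k : ℕ, 1 / vv (z * (1 / 2) ^ k) = 24 * (z * (1 / 2) ^ k / (z * (1 / 2) ^ k + 1) -
      z * (1 / 2) ^ (k + 1) / (z * (1 / 2) ^ (k + 1) + 1)) := fun k => by
    rw [vv_inv (by positivity), pow_succ, mul_assoc]
  simp only [e]
  rw [← Finset.mul_sum,
    Finset.sum_range_sub' fun k => z * (1 / 2 : ℝ) ^ k / (z * (1 / 2) ^ k + 1)]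
  have a1 : z * (1 / 2 : ℝ) ^ 0 / (z * (1 / 2) ^ 0 + 1) ≤ 1 :=
    (div_le_one (by positivity)).2 (by linarith)
  have a2 : 0 ≤ z * (1 / 2 : ℝ) ^ n / (z * (1 / 2) ^ n + 1) := by positivity
  linarith

theorem root {x : ℝ} {j : ℕ} (hj : 1 ≤ j) (hx : 1 ≤ x) : ∃ l : ℝ, 1 ≤ l ∧ l ^ j = x :=
  ⟨x ^ (j⁻¹ : ℝ), Real.one_le_rpow hx (by positivity),
    Real.rpow_inv_natCast_pow (by linarith) (by omega)⟩

end GoodH

open GoodH

theorem good : S_GOOD := by
  intro r g Q F hr hF hm j ε hj hε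
  obtain ⟨C, hC⟩ := hm j
  have C0 := abs_nonneg C
  set M : ℝ := 8 + 96 * (2 * r + 1) * |C| / ε with hM
  have M8 : 8 ≤ M := by
    have : 0 ≤ 96 * (2 * r + 1) * |C| / ε := by positivity
    linarith
  have M0 : 0 < M := by linarith
  refine ⟨M, by linarith, fun a ha d hd => ?_⟩
  have z0 : 0 < r / d := div_pos hr hd
  have v0 : ∀ k : ℕ, 1 / 8 ≤ vv (r / d * (1 / 2) ^ k) := fun k => vv_ge (by positivity)
  have l1 : ∀ k i : ℕ, 1 ≤ M * vv (r / d * (1 / 2) ^ k) * 4 ^ i := fun k i => by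
    have a1 : (1 : ℝ) ≤ 4 ^ i := one_le_pow₀ (by norm_num)
    have a2 := mul_le_mul M8 (v0 k) (by norm_num) M0.le
    exact one_le_mul_of_one_le_of_one_le (by linarith) a1
  choose l l2 l3 using fun k i => root hj (l1 k i)
  choose I I1 I2 using fun k i => hC a ha k (l k i) (l2 k i)
  refine ⟨⋃ k : ℕ, ⋃ i : ℕ, ⋃ x ∈ I k i, ⋃ m : ℤ,
    ball (x + m) ((2 * r + 1) * 2 ^ i * (1 / 2) ^ k), ?_, fun s => ?_, ?_, fun s hs y y0 y1 => ?_⟩
  · exact isOpen_iUnion fun k => isOpen_iUnion fun i => isOpen_biUnion fun x _ =>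
      isOpen_iUnion fun m => isOpen_ball
  · simp only [mem_iUnion, mem_ball, Real.dist_eq]
    constructor
    · rintro ⟨k, i, x, hx, m, h⟩
      refine ⟨k, i, x, hx, m - 1, lt_of_eq_of_lt (congrArg _ ?_) h⟩
      push_cast
      ring
    · rintro ⟨k, i, x, hx, m, h⟩
      refine ⟨k, i, x, hx, m + 1, lt_of_eq_of_lt (congrArg _ ?_) h⟩
      push_cast
      ring
  · have K0 : 0 ≤ 2 * (2 * r + 1) * |C| / M := by positivity
    have w0 : ∀ k : ℕ, 0 < vv (r / d * (1 / 2) ^ k) := fun k => lt_of_lt_of_le (by norm_num) (v0 k)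
    refine cov (f := fun k => 2 * (2 * r + 1) * |C| / M * (1 / vv (r / d * (1 / 2) ^ k)) * 2)
      (fun k => by have := w0 k; positivity) (fun k => ?_) fun n => ?_
    · refine cov (f := fun i => 2 * (2 * r + 1) * |C| / M * (1 / vv (r / d * (1 / 2) ^ k)) *
        (1 / 2) ^ i) (fun i => by have := w0 k; positivity) (fun i => ?_) fun n => ?_
      · refine (fin _ _).trans (ENNReal.ofReal_le_ofReal ?_)
        have a1 := I1 k i
        rw [l3] at a1
        have a2 : C / (M * vv (r / d * (1 / 2) ^ k) * 4 ^ i) ≤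
            |C| / (M * vv (r / d * (1 / 2) ^ k) * 4 ^ i) :=
          div_le_div_of_nonneg_right (le_abs_self C) (by linarith [l1 k i])
        have a3 := mul_le_mul_of_nonneg_left (a1.trans a2)
          (show 0 ≤ 2 * (2 * r + 1) * (2 : ℝ) ^ i by positivity)
        refine le_trans (le_of_eq (by ring)) (a3.trans (le_of_eq ?_))
        have a4 : (4 : ℝ) ^ i = 2 ^ i * 2 ^ i := by rw [← mul_pow]; norm_num
        have a5 := w0 k
        generalize vv (r / d * (1 / 2) ^ k) = v at a5 ⊢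
        rw [a4, one_div_pow]
        field_simp
      · rw [← Finset.mul_sum]
        exact mul_le_mul_of_nonneg_left (sum_geometric_two_le n) (by have := w0 k; positivity)
    · rw [← Finset.sum_mul, ← Finset.mul_sum]
      have a1 := mul_le_mul_of_nonneg_left (vv_sum z0 n) K0
      have a2 : 96 * (2 * r + 1) * |C| / M ≤ ε := by
        have a4 : ε * M = ε * 8 + 96 * (2 * r + 1) * |C| := by
          rw [hM, mul_add, mul_div_cancel₀ _ hε.ne']
        rw [div_le_iff₀ M0]
        linarith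
      have a3 : 2 * (2 * r + 1) * |C| / M * 24 * 2 = 96 * (2 * r + 1) * |C| / M := by ring
      linarith
  · by_contra hn
    rw [not_le] at hn
    refine hs ?_
    have e0 : |y.im| = y.im := abs_of_nonneg y0
    have hy : |y.im| < r := by rwa [e0]
    obtain ⟨k, hk⟩ := P097K.exists_lv (y := y) hr hy
    obtain ⟨k1, k2⟩ := id hk
    rw [e0] at k1 k2
    have δ0 : (0 : ℝ) < (1 / 2) ^ k := by positivity
    have t0 : 0 < r - y.im := by linarith
    have x0 : 0 ≤ |y.re - s| / (r * (1 / 2) ^ k) := by positivity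
    obtain ⟨i, i1, i2⟩ := exists_nat_pow_near (x := 1 + |y.re - s| / (r * (1 / 2) ^ k))
      (y := (2 : ℝ)) (by linarith) (by norm_num)
    have b1 : (2 : ℝ) ^ i ≤ 1 + |y.re - s| / (r - y.im) :=
      i1.trans (by gcongr)
    have b2 : vv (r / d * (1 / 2) ^ k) ≤ max ((r - y.im) / d) (d / (r - y.im)) ^ 2 := by
      have e : r / d * (1 / 2) ^ k * d = r * (1 / 2) ^ k := by field_simp
      refine vv_le hd (by positivity) ?_ ?_
      · rw [e]
        rw [pow_succ] at k1
        linarith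
      · rw [e]
        exact k2
    have b3 : l k i ^ j < (Gs g Q y * (r - y.im) ^ 2 / a (r - y.im) ^ 2) ^ j := by
      refine lt_of_le_of_lt ?_ hn
      rw [l3, mul_assoc, mul_pow]
      refine mul_le_mul_of_nonneg_left (mul_le_mul b2 ?_ (by positivity) (by positivity)) M0.le
      have a4 : (4 : ℝ) ^ i = (2 ^ i) ^ 2 := by rw [← pow_mul, mul_comm, pow_mul]; norm_num
      rw [a4]
      exact pow_le_pow_left₀ (by positivity) b1 2
    have G0 : 0 ≤ Gs g Q y := by unfold Gs; positivity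
    have b4 := lt_of_pow_lt_pow_left₀ j (by positivity) b3
    have a0 : 0 < a (r - y.im) := lt_of_lt_of_le one_pos ((hF a ha).1 _)
    rw [lt_div_iff₀ (by positivity)] at b4
    obtain ⟨x, hx, m, h⟩ := I2 k i y ⟨hy, by rw [e0]; exact b4.le⟩ hk
    simp only [mem_iUnion, mem_ball, Real.dist_eq]
    refine ⟨k, i, x, hx, m, ?_⟩
    have c1 : |y.re - s| < 2 ^ (i + 1) * (r * (1 / 2) ^ k) := by
      rw [← div_lt_iff₀ (by positivity)]
      linarith
    have c2 : (1 : ℝ) * (1 / 2) ^ k ≤ 2 ^ i * (1 / 2) ^ k :=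
      mul_le_mul_of_nonneg_right (one_le_pow₀ (by norm_num)) δ0.le
    rw [pow_succ] at c1
    rw [abs_lt] at c1 ⊢
    rw [abs_le] at h
    constructor <;> nlinarith [c1.1, c1.2, h.1, h.2]

end Vale.Agent.P097W
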