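import Vale.Agent.P097W.Defs
import Vale.Agent.P097M.Law

/-!
# P097W, row 1602: the sharp law for two short chords
-/

set_option linter.all false

noncomputable section

namespace Vale.Agent.P097W

open Filter Topology Set Metric
open Vale.Agent.P097T (Strip)
open Vale.Agent.P097Top (Cur law)
open Vale.Agent.P097N (Ph k1 kk EE Cv)
open Vale.Agent.P097M Vale.Agent.P097M.LawL

namespace LawQL

theorem quart2 {f : ℂ → ℂ} {r K : ℝ} {k₀ : ℂ} (hr : 0 < r) (hK : 0 ≤ K)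
    (hd : ∀ s, s ≠ 0 → ‖s‖ < r → DifferentiableAt ℂ f s)
    (hb : ∀ s, ‖s‖ < r → ‖f s + f (-s)‖ ≤ K * ‖s‖ ^ 4)
    (ht : Tendsto (fun s : ℂ => (f s + f (-s)) / s ^ 4) (𝓝[≠] 0) (𝓝 k₀)) {s : ℂ} (s0 : s ≠ 0)
    (hs : ‖s‖ < r) : ‖f s + f (-s) - s ^ 4 * k₀‖ ≤ 2 * K / r ^ 2 * ‖s‖ ^ 6 := by
  have b1 : ∀ z : ℂ, z ≠ 0 → ‖z‖ < r → ‖(f z + f (-z)) / z ^ 4‖ ≤ K := fun z z0 hz => by
    rw [norm_div, norm_pow, div_le_iff₀ (by positivity)]
    exact hb z hz
  have b0 : ‖k₀‖ ≤ K := by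
    refine le_of_tendsto ht.norm ?_
    filter_upwards [self_mem_nhdsWithin, mem_nhdsWithin_of_mem_nhds (ball_mem_nhds (0 : ℂ) hr)]
      with z z0 hz using b1 z z0 (mem_ball_zero_iff.1 hz)
  set k : ℂ → ℂ := Function.update (fun s : ℂ => (f s + f (-s)) / s ^ 4) 0 k₀ with hk
  have k0 : k 0 = k₀ := Function.update_self ..
  have k1 : ∀ z ≠ 0, k z = (f z + f (-z)) / z ^ 4 := fun z hz => Function.update_of_ne hz _ _
  have d : DifferentiableOn ℂ k (ball 0 r) := by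
    refine (Complex.differentiableOn_compl_singleton_and_continuousAt_iff
      (ball_mem_nhds _ hr)).1 ⟨fun z hz => ?_, continuousAt_update_same.2 ht⟩
    have z0 : z ≠ 0 := hz.2
    have z1 := mem_ball_zero_iff.1 hz.1
    refine ((((hd z z0 z1).add ((hd (-z) (neg_ne_zero.2 z0) (by rwa [norm_neg])).comp z
      differentiableAt_id.neg)).div (differentiableAt_pow 4)
        (pow_ne_zero 4 z0)).congr_of_eventuallyEq ?_).differentiableWithinAt
    filter_upwards [isOpen_ne.mem_nhds z0] with w hw using k1 w hw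
  have h := P097N.ColL.even2 (g := fun z => k z - k₀) (M := 2 * K) (d.sub_const _)
    (by rw [k0, sub_self]) (fun w _ => by
      rcases eq_or_ne w 0 with rfl | w0
      · rw [neg_zero]
      · rw [k1 w w0, k1 _ (neg_ne_zero.2 w0), neg_neg, add_comm, Even.neg_pow (by decide)])
    (fun w hw => by
      rcases eq_or_ne w 0 with rfl | w0
      · rw [k0, sub_self, norm_zero]
        positivity
      · rw [k1 w w0]
        refine (norm_sub_le_of_le (b1 w w0 (mem_ball_zero_iff.1 hw)) b0).trans_eq ?_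
        ring) s (mem_ball_zero_iff.2 hs)
  rw [show f s + f (-s) - s ^ 4 * k₀ = s ^ 4 * (k s - k₀) by rw [k1 s s0]; field_simp,
    norm_mul, norm_pow]
  refine (mul_le_mul_of_nonneg_left h (by positivity)).trans_eq ?_
  ring

end LawQL

open LawQL in
/-- 1602 -/
theorem lawq (hT : S_TAY) (hO : S_ODD) : S_LAWQ := by
  obtain ⟨K, K1, hK⟩ := hO
  refine ⟨10 ^ 7 * K, by linarith, fun r c θ H Q C y a b ρ G u m hu hG ha hb hl => ?_⟩
  have V : Cv θ H Q c (Strip r) := ⟨P097N.Bridge.op r, C.dθ, C.dH, C.dQ,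
    Complex.ofReal_ne_zero.2 C.cpos.ne', C.laz, C.ode⟩
  have ρ0 := m.pos
  have G0 : 0 < G := (pos_iff_pos_of_mul_pos (one_pos.trans_le m.one)).2 m.pos
  obtain ⟨δ, hδ, e⟩ : ∃ δ : ℝ, 0 < δ ∧ G * δ = 1 := ⟨G⁻¹, by positivity, mul_inv_cancel₀ G0.ne'⟩
  have u1 : u ≤ δ / 40 := by nlinarith [mul_le_mul_of_nonneg_right hG hδ.le]
  have nn : ∀ {a : ℂ}, ‖a - u‖ ≤ u / 4 → 3 / 4 * u ≤ ‖a‖ ∧ ‖a‖ ≤ 5 / 4 * u := fun {a} ha => by
    have h := abs_le.1 ((abs_norm_sub_norm_le a u).trans ha)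
    rw [Complex.norm_real, Real.norm_of_nonneg hu.le] at h
    constructor <;> linarith [h.1, h.2]
  obtain ⟨a1, a2⟩ := nn ha
  obtain ⟨b1, b2⟩ := nn hb
  have a0 : a ≠ 0 := norm_pos_iff.1 (by linarith)
  have b0 : b ≠ 0 := norm_pos_iff.1 (by linarith)
  have L := fun s hs => loc V m hδ e (s := s) hs
  have l1 := lip (f := fun s => Ph θ H (y, y + s)) (t := δ / 32) (r := δ / 6) (κ := 12 * G ^ 2)
    (by positivity) (by linarith) (by positivity)
    (by rw [show 27 * (12 * G ^ 2) * (δ / 32) ^ 2 = 81 / 256 * (G * δ) ^ 2 by ring, e]; norm_num)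
    (fun s s0 hs => ((L s hs).2 s0).2) (fun s hs => (L s hs).1) (a := a) (b := b)
    (by linarith) (by linarith)
  have l2 := quart2 (f := fun s => Ph θ H (y, y + s)) (r := δ / 6) (K := K * G ^ 2 / ρ)
    (by positivity) (by positivity) (fun s s0 hs => ((L s hs).2 s0).2) (fun s hs => by
      rw [div_mul_eq_mul_div, le_div_iff₀ ρ0, ← sub_eq_add_neg]
      exact hK θ H Q c y s r ρ G V m (by nlinarith [mul_lt_mul_of_pos_left hs G0]))
    (by simpa only [sub_eq_add_neg] using hT θ H Q c _ V y (m.sub (mem_ball_self m.pos))) a0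
    (by linarith)
  have l3 := ph_law ((P097N.Bridge.law_eq ..).symm.trans hl) ((L b (by linarith)).2 b0).1 (by
    rw [sub_eq_add_neg]
    exact ((L (-a) (by rw [norm_neg]; linarith)).2 (neg_ne_zero.2 a0)).1)
  rw [sub_eq_add_neg, add_comm, add_eq_zero_iff_eq_neg] at l3
  have e5 : 2 * (K * G ^ 2 / ρ) / (δ / 6) ^ 2 = 72 * (K * (G ^ 4 / ρ)) := by
    rw [div_eq_iff (by positivity)]
    linear_combination (-2 * K * G ^ 2 / ρ * (G * δ + 1)) * e
  rw [l3, e5, ← sub_eq_add_neg] at l2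
  generalize Ph θ H (y, y + a) = p at l1 l2
  generalize Ph θ H (y, y + b) = q at l1 l2
  rw [show p - a - (q - b) = p - q - (a - b) by ring] at l1
  have l4 := abs_le.1 ((abs_norm_sub_norm_le _ _).trans l1)
  have l5 := (abs_norm_sub_norm_le _ _).trans l2
  rw [norm_mul, norm_pow, norm_div, norm_neg, Complex.norm_ofNat] at l5
  rw [norm_sub_rev b a, show G ^ 4 * u ^ 6 / ρ = G ^ 4 / ρ * u ^ 6 by ring]
  have W0 : 0 ≤ G ^ 4 / ρ := by positivity
  generalize G ^ 4 / ρ = W at l5 W0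
  have K0 : 0 ≤ K := by linarith
  obtain ⟨n1, n2⟩ := num (W := K * W) (D := ‖a - b‖) hu a1 a2 (norm_nonneg _) (by positivity)
    (norm_nonneg _)
    (by linarith [l4.1]) (by linarith [l4.2]) (l5.trans (by gcongr; norm_num))
  have x1 : ‖a - b‖ ≤ K * ‖a - b‖ := le_mul_of_one_le_left (norm_nonneg _) K1
  have x2 : ‖deriv (E1 (deriv θ) Q) y‖ * u ^ 4 ≤ K * (‖deriv (E1 (deriv θ) Q) y‖ * u ^ 4) :=
    le_mul_of_one_le_left (by positivity) K1
  constructor <;> linarith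

end Vale.Agent.P097W
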