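import Vale.Agent.P097W.Defs

/-! # P097W, row 1604: the sharp law along a leaf -/

set_option linter.all false

noncomputable section

namespace Vale.Agent.P097W

open Filter Topology Set Metric
open Vale.Agent.P097T (Strip)
open Vale.Agent.P097M

theorem lxq (hH : S_HAR) (hS : S_SD) : S_LXQ := by
  intro CL hCL
  refine ⟨5120 * CL, by linarith, ?_⟩
  intro r C u g Q Y Lw hu hC hL hY x t ρ G ht h23 hCu hut hP hCm hG
  have t0 : 0 < t := by linarith
  have him : ∀ z ∈ ball x (t / 2), 0 ≤ z.im ∧ z.im < r - C * u := fun z hz => by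
    have e := (abs_lt.1 ((Complex.abs_im_le_norm (z - x)).trans_lt (mem_ball_iff_norm.1 hz)))
    rw [Complex.sub_im] at e
    constructor <;> linarith [e.1, e.2]
  have hsub : ball x (t / 2) ⊆ Strip (r - C * u) := fun z hz => by
    have := him z hz
    show |z.im| < _
    rw [abs_of_nonneg this.1]
    exact this.2
  have hx : x ∈ ball x (t / 2) := mem_ball_self (by linarith)
  set P := PP C u Y x with hPd
  have P0 : 0 ≤ P := hY.pos x (him x hx).1 (him x hx).2
  have G0 : 0 < G := by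
    by_contra h
    nlinarith [hCm.one, hCm.pos]
  let f : ℂ → ℂ := fun z => Y z - z
  have df : DifferentiableOn ℂ f (ball x (t / 2)) := (hY.d.mono hsub).sub differentiableOn_id
  have re : ∀ z, (((C * u : ℝ) : ℂ) + Complex.I * f z).re = PP C u Y z := fun z => by
    simp [PP, f]
    ring
  have hb : ∀ z ∈ ball x (t / 4), ‖f z - f x‖ ≤ 2 * P := fun z hz => by
    have d := mem_ball_iff_norm.1 hz
    have e := (hH (fun z => ((C * u : ℝ) : ℂ) + Complex.I * f z) x (t / 2)
      ((differentiableOn_const _).add (df.const_mul _))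
      (fun z hz => by rw [re]; exact hY.pos z (him z hz).1 (him z hz).2) z
      (ball_subset_ball (by linarith) hz)).2.2
    rw [re, add_sub_add_left_eq_sub, ← mul_sub, norm_mul, Complex.norm_I, one_mul, ← hPd] at e
    have n0 := norm_nonneg (f z - f x)
    have : ‖f z - f x‖ * (t / 4) ≤ 2 * P * (t / 4) := by nlinarith
    exact le_of_mul_le_mul_right this (by linarith)
  have d4 : DifferentiableOn ℂ f (ball x (t / 4)) := df.mono (ball_subset_ball (by linarith))
  have nu : ‖(u : ℂ)‖ = u := by rw [Complex.norm_real, Real.norm_of_nonneg hu.le]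
  obtain ⟨s1, s2, s3⟩ := hS f x u (t / 4) (2 * P) d4 hb (by rw [nu]; linarith)
  obtain ⟨s4, -, -⟩ := hS f x (-u) (t / 4) (2 * P) d4 hb (by rw [norm_neg, nu]; linarith)
  rw [norm_neg, ← sub_eq_add_neg] at s4
  rw [nu] at s1 s2 s3 s4
  have q : 2 * P * u / (t / 4) ≤ u / 4 := by
    rw [div_le_iff₀ (by linarith)]
    nlinarith
  have dd : deriv (deriv f) x = deriv (deriv Y) x := by
    have e : deriv f =ᶠ[𝓝 x] fun z => deriv Y z - 1 := by
      filter_upwards [isOpen_ball.mem_nhds hx] with z hz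
      exact (((hY.d.mono hsub).differentiableAt (isOpen_ball.mem_nhds hz)).hasDerivAt.sub
        (hasDerivAt_id z)).deriv
    rw [e.deriv_eq, deriv_sub_const]
  have e1 : Y x - Y (x - u) - u = -(f (x - u) - f x) := by simp only [f]; ring
  have e2 : Y (x + u) - Y x - u = f (x + u) - f x := by simp only [f]; ring
  have e3 : Y (x + u) - Y x - (Y x - Y (x - u)) = f (x + u) + f (x - u) - 2 * f x := by
    simp only [f]; ring
  obtain ⟨l1, l2⟩ := hL (Y x) (Y x - Y (x - u)) (Y (x + u) - Y x) ρ G u hCm hu hG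
    (by rw [e1, norm_neg]; exact s4.trans q) (by rw [e2]; exact s1.trans q)
    (by rw [sub_sub_cancel, add_sub_cancel]; exact hY.law x (hsub hx))
  rw [e3] at l1 l2
  have W0 : 0 < G ^ 4 / ρ := div_pos (pow_pos G0 4) hCm.pos
  have eW : ∀ k : ℕ, G ^ 4 * u ^ k / ρ = G ^ 4 / ρ * u ^ k := fun k => by ring
  rw [eW] at l1 l2
  rw [eW, eW]
  generalize G ^ 4 / ρ = W at W0 l1 l2 ⊢
  rw [dd] at s3
  set D := ‖deriv (E1 g Q) (Y x)‖
  have D0 : 0 ≤ D := norm_nonneg _
  have a0 : 0 ≤ P / (u ^ 2 * t ^ 2) := by positivity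
  have a1 : 0 ≤ W * u ^ 2 := by positivity
  have a2 : 0 ≤ u ^ 2 * P / t ^ 4 := by positivity
  have a3 : 0 ≤ u ^ 2 * D + W * u ^ 4 := by positivity
  constructor
  · have e : 2 * (2 * P) * u ^ 2 / (t / 4) ^ 2 = 64 * (P / (u ^ 2 * t ^ 2)) * u ^ 4 := by
      field_simp
      ring
    rw [e] at s2
    have h1 : D * u ^ 4 ≤ CL * (64 * (P / (u ^ 2 * t ^ 2)) + W * u ^ 2) * u ^ 4 := by
      calc _ ≤ _ := l1
        _ ≤ CL * (64 * (P / (u ^ 2 * t ^ 2)) * u ^ 4 + W * u ^ 6) := by gcongr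
        _ = _ := by ring
    have h2 := le_of_mul_le_mul_right h1 (by positivity)
    nlinarith [mul_nonneg (by linarith : 0 ≤ CL) a0, mul_nonneg (by linarith : 0 ≤ CL) a1]
  · have e : 10 * (2 * P) * u ^ 4 / (t / 4) ^ 4 = 5120 * (u ^ 2 * P / t ^ 4) * u ^ 2 := by
      field_simp
      ring
    rw [e] at s3
    have h0 := norm_sub_le (f (x + u) + f (x - u) - 2 * f x)
      (f (x + u) + f (x - u) - 2 * f x - (u : ℂ) ^ 2 * deriv (deriv Y) x)
    rw [sub_sub_cancel, norm_mul, norm_pow, nu] at h0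
    have h1 : ‖deriv (deriv Y) x‖ * u ^ 2 ≤
        (CL * (u ^ 2 * D + W * u ^ 4) + 5120 * (u ^ 2 * P / t ^ 4)) * u ^ 2 := by
      calc _ = _ := mul_comm _ _
        _ ≤ _ := h0
        _ ≤ CL * (D * u ^ 4 + W * u ^ 6) + 5120 * (u ^ 2 * P / t ^ 4) * u ^ 2 :=
          add_le_add l2 s3
        _ = _ := by ring
    have h2 := le_of_mul_le_mul_right h1 (by positivity)
    nlinarith [mul_nonneg (by linarith : 0 ≤ CL) a3, mul_nonneg (by linarith : 0 ≤ CL - 1) a2]

end Vale.Agent.P097W
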