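import Vale.Agent.P097W.Defs
import Vale.Agent.P097N.K

/-!
# P097W: the odd part of the slope function in a calm disc
-/

set_option linter.all false

noncomputable section

namespace Vale.Agent.P097W

open Filter Topology Set Metric
open Vale.Agent.P097T (Strip)
open Vale.Agent.P097M
open Vale.Agent.P097N (Cv kk k1 Ph)

namespace Odd

theorem mv {f f' : ℂ → ℂ} {s : ℂ} {C : ℝ} (d : ∀ z ∈ segment ℝ 0 s, HasDerivAt f (f' z) z)
    (c : ∀ z ∈ segment ℝ 0 s, ‖f' z‖ ≤ C) : ∀ z ∈ segment ℝ 0 s, ‖f z - f 0‖ ≤ C * ‖s‖ :=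
  fun z hz => ((convex_segment 0 s).norm_image_sub_le_of_norm_hasDerivWithin_le
    (fun x hx => (d x hx).hasDerivWithinAt) c (left_mem_segment ℝ 0 s) hz).trans
      (mul_le_mul_of_nonneg_left (by simpa using norm_sub_le_of_mem_segment hz)
        ((norm_nonneg _).trans (c 0 (left_mem_segment ℝ 0 s))))

/-- the bootstrap in the supremum norm -/
theorem boot {u u1 u2 u3 : ℂ → ℂ} {s : ℂ} {A₂ A₃ φ : ℝ}
    (d0 : ∀ z ∈ segment ℝ 0 s, HasDerivAt u (u1 z) z)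
    (d1 : ∀ z ∈ segment ℝ 0 s, HasDerivAt u1 (u2 z) z)
    (d2 : ∀ z ∈ segment ℝ 0 s, HasDerivAt u2 (u3 z) z)
    (bd : ∀ z ∈ segment ℝ 0 s, ‖u3 z‖ ≤ A₂ * ‖u1 z‖ + A₃ * ‖u z‖ + φ) (e0 : u 0 = 0)
    (e1 : u1 0 = 0) (p2 : 0 ≤ A₂) (p3 : 0 ≤ A₃) (h2 : A₂ * ‖s‖ ^ 2 ≤ 1 / 16)
    (h3 : A₃ * ‖s‖ ^ 3 ≤ 1 / 16) : ∀ z ∈ segment ℝ 0 s,
    ‖u2 z - u2 0‖ ≤ (‖u2 0‖ + φ * ‖s‖) / 4 + φ * ‖s‖ ∧
      ‖u1 z‖ ≤ 2 * (‖u2 0‖ + φ * ‖s‖) * ‖s‖ ∧ ‖u z‖ ≤ 2 * (‖u2 0‖ + φ * ‖s‖) * ‖s‖ * ‖s‖ := by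
  have L0 := norm_nonneg s
  have cp : IsCompact (segment ℝ 0 s) := by
    rw [segment_eq_image]; exact isCompact_Icc.image (by fun_prop)
  obtain ⟨z₀, hz₀, mx⟩ := cp.exists_isMaxOn ⟨0, left_mem_segment ℝ 0 s⟩ (f := fun z => ‖u2 z‖)
    fun z hz => (d2 z hz).continuousAt.norm.continuousWithinAt
  set m := ‖u2 z₀‖
  have m0 : 0 ≤ m := norm_nonneg _
  have k1 := mv d1 mx
  simp only [e1, sub_zero] at k1
  have k0 := mv d0 k1
  simp only [e0, sub_zero] at k0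
  have k2 : ∀ z ∈ segment ℝ 0 s, ‖u2 z - u2 0‖ ≤ m / 8 + φ * ‖s‖ := fun z hz => by
    have := mv d2 (C := A₂ * (m * ‖s‖) + A₃ * (m * ‖s‖ * ‖s‖) + φ) (fun x hx =>
      (bd x hx).trans (add_le_add (add_le_add (mul_le_mul_of_nonneg_left (k1 x hx) p2)
        (mul_le_mul_of_nonneg_left (k0 x hx) p3)) le_rfl)) z hz
    linarith [mul_le_mul_of_nonneg_left h2 m0, mul_le_mul_of_nonneg_left h3 m0]
  have m1 : m ≤ 2 * (‖u2 0‖ + φ * ‖s‖) := by
    have := norm_sub_norm_le (u2 z₀) (u2 0)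
    linarith [k2 z₀ hz₀]
  refine fun z hz => ⟨(k2 z hz).trans (by linarith), (k1 z hz).trans (by gcongr),
    (k0 z hz).trans (by gcongr)⟩

/-- a solution with data `0, 0, 1` -/
theorem one {v v1 v2 P R : ℂ → ℂ} {s : ℂ} {A₂ A₃ : ℝ}
    (d : ∀ z ∈ segment ℝ 0 s, HasDerivAt v (v1 z) z ∧ HasDerivAt v1 (v2 z) z ∧
      HasDerivAt v2 (P z * v1 z + R z * v z) z)
    (bd : ∀ z ∈ segment ℝ 0 s, ‖P z‖ ≤ A₂ ∧ ‖R z‖ ≤ A₃) (e0 : v 0 = 0) (e1 : v1 0 = 0)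
    (e2 : v2 0 = 1) (h2 : A₂ * ‖s‖ ^ 2 ≤ 1 / 16) (h3 : A₃ * ‖s‖ ^ 3 ≤ 1 / 16) :
    (∀ z ∈ segment ℝ 0 s, ‖v1 z‖ ≤ 2 * ‖s‖ ∧ ‖v z‖ ≤ 2 * ‖s‖ * ‖s‖) ∧ ‖s‖ / 2 ≤ ‖v1 s‖ := by
  have o := left_mem_segment ℝ 0 s
  have := boot (φ := 0) (fun z hz => (d z hz).1) (fun z hz => (d z hz).2.1)
    (fun z hz => (d z hz).2.2) (fun z hz => (norm_add_le _ _).trans (by
      rw [norm_mul, norm_mul, add_zero]
      exact add_le_add (mul_le_mul_of_nonneg_right (bd z hz).1 (norm_nonneg _))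
        (mul_le_mul_of_nonneg_right (bd z hz).2 (norm_nonneg _)))) e0 e1
    ((norm_nonneg _).trans (bd 0 o).1) ((norm_nonneg _).trans (bd 0 o).2) h2 h3
  simp only [e2, norm_one, zero_mul, add_zero, mul_one] at this
  refine ⟨fun z hz => (this z hz).2, ?_⟩
  have k := mv (f := fun z => v1 z - z) (fun z hz => (d z hz).2.1.sub (hasDerivAt_id' z))
    (fun z hz => (this z hz).1) s (right_mem_segment ℝ 0 s)
  simp only [e1, sub_zero] at k
  have := norm_sub_norm_le s (v1 s)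
  rw [norm_sub_rev s] at this
  linarith [norm_nonneg s]

/-- two solutions of close equations -/
theorem two {v v1 v2 P R w w1 w2 P' R' : ℂ → ℂ} {s : ℂ} {A₂ A₃ : ℝ}
    (d : ∀ z ∈ segment ℝ 0 s, HasDerivAt v (v1 z) z ∧ HasDerivAt v1 (v2 z) z ∧
      HasDerivAt v2 (P z * v1 z + R z * v z) z)
    (d' : ∀ z ∈ segment ℝ 0 s, HasDerivAt w (w1 z) z ∧ HasDerivAt w1 (w2 z) z ∧
      HasDerivAt w2 (P' z * w1 z + R' z * w z) z)
    (bd : ∀ z ∈ segment ℝ 0 s, ‖P z‖ ≤ A₂ ∧ ‖R z‖ ≤ A₃)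
    (bd' : ∀ z ∈ segment ℝ 0 s, ‖P' z‖ ≤ A₂ ∧ ‖R' z‖ ≤ A₃)
    (cl : ∀ z ∈ segment ℝ 0 s, ‖P z - P' z‖ ≤ A₃ * ‖s‖)
    (e0 : v 0 = 0) (e1 : v1 0 = 0) (e2 : v2 0 = 1) (f0 : w 0 = 0) (f1 : w1 0 = 0) (f2 : w2 0 = 1)
    (h2 : A₂ * ‖s‖ ^ 2 ≤ 1 / 16) (h3 : A₃ * ‖s‖ ^ 3 ≤ 1 / 16) :
    ‖v s / v1 s - w s / w1 s‖ ≤ 192 * A₃ * ‖s‖ ^ 4 := by
  have o := left_mem_segment ℝ 0 s
  have o' := right_mem_segment ℝ 0 s
  have p3 : 0 ≤ A₃ := (norm_nonneg _).trans (bd 0 o).2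
  rcases eq_or_ne s 0 with rfl | ne
  · simp [e0, f0]
  have L0 : 0 < ‖s‖ := norm_pos_iff.2 ne
  obtain ⟨-, a⟩ := one d bd e0 e1 e2 h2 h3
  obtain ⟨b, a'⟩ := one d' bd' f0 f1 f2 h2 h3
  have := boot (u := fun z => v z - w z) (u1 := fun z => v1 z - w1 z) (u2 := fun z => v2 z - w2 z)
    (A₂ := A₂) (A₃ := A₃) (φ := 6 * A₃ * ‖s‖ ^ 2)
    (fun z hz => (d z hz).1.sub (d' z hz).1) (fun z hz => (d z hz).2.1.sub (d' z hz).2.1)
    (fun z hz => (d z hz).2.2.sub (d' z hz).2.2) (fun z hz => by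
      rw [show P z * v1 z + R z * v z - (P' z * w1 z + R' z * w z) = P z * (v1 z - w1 z) +
        R z * (v z - w z) + ((P z - P' z) * w1 z + (R z - R' z) * w z) by ring]
      refine norm_add₃_le.trans (add_le_add (add_le_add ?_ ?_) ((norm_add_le _ _).trans ?_))
      · rw [norm_mul]; exact mul_le_mul_of_nonneg_right (bd z hz).1 (norm_nonneg _)
      · rw [norm_mul]; exact mul_le_mul_of_nonneg_right (bd z hz).2 (norm_nonneg _)
      rw [norm_mul, norm_mul]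
      have r1 : ‖R z - R' z‖ ≤ 2 * A₃ := by
        linarith [norm_sub_le (R z) (R' z), (bd z hz).2, (bd' z hz).2]
      have r2 := mul_le_mul (cl z hz) (b z hz).1 (norm_nonneg _) (by positivity)
      have r3 := mul_le_mul r1 (b z hz).2 (norm_nonneg _) (by positivity)
      linarith) (by simp only [e0, f0, sub_self]) (by simp only [e1, f1, sub_self])
    ((norm_nonneg _).trans (bd 0 o).1) p3 h2 h3 s o'
  simp only [e2, f2, sub_self, norm_zero, zero_add] at this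
  obtain ⟨-, t1, t0⟩ := this
  have n1 : 0 < ‖v1 s‖ := by linarith
  have n2 : 0 < ‖w1 s‖ := by linarith
  have m1 := norm_pos_iff.1 n1
  have m2 := norm_pos_iff.1 n2
  rw [show v s / v1 s - w s / w1 s =
    ((v s - w s) * w1 s - w s * (v1 s - w1 s)) / (v1 s * w1 s) by field_simp; ring,
    norm_div, norm_mul, div_le_iff₀ (mul_pos n1 n2)]
  refine (norm_sub_le _ _).trans ?_
  rw [norm_mul, norm_mul]
  have r1 := mul_le_mul t0 (b s o').1 (norm_nonneg _) (by positivity)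
  have r2 := mul_le_mul (b s o').2 t1 (norm_nonneg _) (by positivity)
  have r3 := mul_le_mul_of_nonneg_left (mul_le_mul a a' (by positivity) n1.le)
    (show 0 ≤ 192 * A₃ * ‖s‖ ^ 4 by positivity)
  linarith

theorem cau {f : ℂ → ℂ} {y z : ℂ} {ρ B : ℝ} (hρ : 0 < ρ) (d : DifferentiableOn ℂ f (ball y ρ))
    (b : ∀ x ∈ ball y ρ, ‖f x‖ ≤ B) (hz : z ∈ ball y (ρ / 2)) : ‖deriv f z‖ ≤ B / (ρ / 2) := by
  have sb : closedBall z (ρ / 2) ⊆ ball y ρ :=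
    closedBall_subset_ball' (by linarith [mem_ball.1 hz])
  exact Complex.norm_deriv_le_of_forall_mem_sphere_norm_le (half_pos hρ)
    (d.diffContOnCl_ball sb) fun x hx => b x (sb (sphere_subset_closedBall hx))

open Vale.Agent.P097N.K Complex in
/-- the equation of the kernel in the first slot -/
theorem ode {θ h Q : ℂ → ℂ} {c b : ℂ} {U : Set ℂ} (C : Cv θ h Q c U) (hb : b ∈ U) :
    ∃ V : ℂ → ℂ, V b = 1 ∧ ∀ z ∈ U,
      HasDerivAt (fun z => kk θ h z b / c) (k1 θ h z b / c) z ∧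
      HasDerivAt (fun z => k1 θ h z b / c) (V z) z ∧
      HasDerivAt V ((Q z - deriv θ z ^ 2) * (k1 θ h z b / c) -
        3 * deriv θ z * deriv (deriv θ) z * (kk θ h z b / c)) z := by
  refine ⟨fun z => (deriv θ b * deriv (deriv h) z + deriv θ b * h b *
      (deriv (deriv θ) z * sin (θ z - θ b) + deriv θ z ^ 2 * cos (θ z - θ b)) - deriv h b *
      (deriv (deriv θ) z * cos (θ z - θ b) - deriv θ z ^ 2 * sin (θ z - θ b))) / c, ?_,
    fun z hz => ?_⟩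
  · rw [div_eq_one_iff_eq C.c0, ← C.ode b hb]; simp; ring
  have t0 := (aθ C hz).differentiableAt.hasDerivAt
  have t1 := (aθ C hz).deriv.differentiableAt.hasDerivAt
  have t2 := (aθ C hz).deriv.deriv.differentiableAt.hasDerivAt
  have co := (t0.sub_const (θ b)).ccos
  have si := (t0.sub_const (θ b)).csin
  refine ⟨(((((ah C hz).differentiableAt.hasDerivAt.const_mul (deriv θ b)).sub
      (co.const_mul (deriv θ b * h b))).sub (si.const_mul (deriv h b))).div_const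
        c).congr_deriv (by rw [k1]; ring),
    (((((ah C hz).deriv.differentiableAt.hasDerivAt.const_mul (deriv θ b)).add
      ((t1.const_mul (deriv θ b * h b)).mul si)).sub
        ((t1.const_mul (deriv h b)).mul co)).div_const c).congr_deriv (by ring), ?_⟩
  refine (((((ah C hz).deriv.deriv.differentiableAt.hasDerivAt.const_mul (deriv θ b)).add
    (((t2.mul si).add ((t1.pow 2).mul co)).const_mul (deriv θ b * h b))).sub
      (((t2.mul co).sub ((t1.pow 2).mul si)).const_mul (deriv h b))).div_const c).congr_deriv ?_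
  rw [third C hz, C.hq z hz, kk, k1]
  simp only [Pi.pow_apply, Nat.cast_ofNat, Nat.add_one_sub_one]
  ring

/-- the same along the parameter `t`, the first slot being `b - σ t` -/
theorem par {θ h Q : ℂ → ℂ} {c b σ : ℂ} {U : Set ℂ} (C : Cv θ h Q c U) (hb : b ∈ U)
    (hσ : σ * σ = 1) : ∃ V : ℂ → ℂ, V 0 = 1 ∧ ∀ t, b - σ * t ∈ U →
      HasDerivAt (fun t => kk θ h (b - σ * t) b / c) (-σ * (k1 θ h (b - σ * t) b / c)) t ∧
      HasDerivAt (fun t => -σ * (k1 θ h (b - σ * t) b / c)) (V t) t ∧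
      HasDerivAt V ((Q (b - σ * t) - deriv θ (b - σ * t) ^ 2) * (-σ * (k1 θ h (b - σ * t) b / c)) +
        σ * (3 * deriv θ (b - σ * t) * deriv (deriv θ) (b - σ * t)) *
          (kk θ h (b - σ * t) b / c)) t := by
  obtain ⟨V, v1, hV⟩ := ode C hb
  refine ⟨fun t => V (b - σ * t), by simp only [mul_zero, sub_zero, v1], fun t ht => ?_⟩
  have a : HasDerivAt (fun t => b - σ * t) (-σ) t :=
    (((hasDerivAt_id' t).const_mul σ).const_sub b).congr_deriv (by ring)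
  obtain ⟨x0, x1, x2⟩ := hV _ ht
  have y0 := x0.comp t a
  have y1 := (x1.comp t a).const_mul (-σ)
  have y2 := x2.comp t a
  exact ⟨y0.congr_deriv (by ring), y1.congr_deriv (by linear_combination V (b - σ * t) * hσ),
    y2.congr_deriv (by ring)⟩

end Odd

open Odd

theorem odd : S_ODD := by
  refine ⟨2304, by norm_num, fun θ h Q c y s r ρ G C M hs => ?_⟩
  have ρ0 := M.pos
  have G0 : 0 < G := pos_of_mul_pos_left (b := ρ) (by linarith [M.one]) ρ0.le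
  have L0 := norm_nonneg s
  have sρ : ‖s‖ < ρ / 6 := lt_of_mul_lt_mul_left (by linarith [M.one]) G0.le
  have bg : ∀ x ∈ ball y ρ, ‖deriv θ x‖ ≤ G := fun x hx =>
    (pow_le_pow_iff_left₀ (norm_nonneg _) G0.le two_ne_zero).1
      ((le_add_of_nonneg_right (norm_nonneg (Q x))).trans (M.bd x hx))
  have bP : ∀ x ∈ ball y ρ, ‖Q x - deriv θ x ^ 2‖ ≤ G ^ 2 := fun x hx =>
    (norm_sub_le _ _).trans (by rw [norm_pow, add_comm]; exact M.bd x hx)
  have dg : DifferentiableOn ℂ (deriv θ) (ball y ρ) := (C.dθ.deriv C.op).mono M.sub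
  have dP : DifferentiableOn ℂ (fun x => Q x - deriv θ x ^ 2) (ball y ρ) :=
    (C.dQ.mono M.sub).sub (dg.pow 2)
  have sb : ball y (ρ / 2) ⊆ ball y ρ := ball_subset_ball (by linarith)
  have nr : ∀ σ : ℂ, ‖σ‖ = 1 → ∀ t ∈ segment ℝ 0 s, ‖y + σ * s - σ * t - y‖ ≤ ‖s‖ :=
    fun σ e t ht => by
      rw [show y + σ * s - σ * t - y = -σ * (t - s) by ring, norm_mul, norm_neg, e, one_mul]
      rw [segment_symm] at ht
      simpa using norm_sub_le_of_mem_segment ht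
  have mem : ∀ σ : ℂ, ‖σ‖ = 1 → ∀ t ∈ segment ℝ 0 s, y + σ * s - σ * t ∈ ball y (ρ / 2) :=
    fun σ e t ht => mem_ball_iff_norm.2 (by linarith [nr σ e t ht])
  have bd : ∀ σ : ℂ, ‖σ‖ = 1 → ∀ t ∈ segment ℝ 0 s,
      ‖Q (y + σ * s - σ * t) - deriv θ (y + σ * s - σ * t) ^ 2‖ ≤ G ^ 2 ∧
      ‖σ * (3 * deriv θ (y + σ * s - σ * t) * deriv (deriv θ) (y + σ * s - σ * t))‖ ≤
        6 * G ^ 2 / ρ := fun σ e t ht => by
    refine ⟨bP _ (sb (mem σ e t ht)), ?_⟩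
    rw [norm_mul, e, one_mul, norm_mul, norm_mul, Complex.norm_ofNat]
    refine (mul_le_mul (mul_le_mul_of_nonneg_left (bg _ (sb (mem σ e t ht))) (by norm_num))
      (cau ρ0 dg bg (mem σ e t ht)) (norm_nonneg _) (by positivity)).trans (le_of_eq ?_)
    field_simp
    norm_num
  have hb : ∀ σ : ℂ, ‖σ‖ = 1 → y + σ * s ∈ Strip r := fun σ e => by
    simpa using M.sub (sb (mem σ e 0 (left_mem_segment ℝ 0 s)))
  have n1 : ‖(1 : ℂ)‖ = 1 := norm_one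
  have n2 : ‖(-1 : ℂ)‖ = 1 := by rw [norm_neg, norm_one]
  obtain ⟨V, v, hV⟩ := par C (hb 1 n1) (σ := 1) (by ring)
  obtain ⟨W, w, hW⟩ := par C (hb (-1) n2) (σ := -1) (by ring)
  have gl : (G * ‖s‖) ^ 2 ≤ (1 / 6) ^ 2 := by gcongr
  have key := two (fun t ht => hV t (M.sub (sb (mem 1 n1 t ht))))
    (fun t ht => hW t (M.sub (sb (mem (-1) n2 t ht)))) (bd 1 n1) (bd (-1) n2) (fun t ht => by
      refine ((convex_ball y (ρ / 2)).norm_image_sub_le_of_norm_deriv_le (𝕜 := ℂ)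
        (f := fun x => Q x - deriv θ x ^ 2) (fun x hx => dP.differentiableAt
          (isOpen_ball.mem_nhds (sb hx))) (fun x hx => cau ρ0 dP bP hx) (mem (-1) n2 t ht)
          (mem 1 n1 t ht)).trans ?_
      have := norm_sub_le_norm_sub_add_norm_sub (y + 1 * s - 1 * t) y (y + -1 * s - -1 * t)
      rw [norm_sub_rev y] at this
      calc _ ≤ G ^ 2 / (ρ / 2) * (3 * ‖s‖) := by
            gcongr; linarith [nr 1 n1 t ht, nr (-1) n2 t ht]
        _ = _ := by field_simp; ring)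
    (by simp [kk]) (by simp [k1, mul_comm]) v (by simp [kk]) (by simp [k1, mul_comm]) w
    (by linarith) (by
      rw [div_mul_eq_mul_div, div_le_iff₀ ρ0]
      linarith [mul_le_mul gl sρ.le L0 (by norm_num)])
  have c0 := C.c0
  simp only [add_sub_cancel_right] at key
  rw [show Ph θ h (y, y + s) + Ph θ h (y, y - s) = 2 * (kk θ h y (y + 1 * s) / c /
    (-1 * (k1 θ h y (y + 1 * s) / c)) - kk θ h y (y + -1 * s) / c /
      (- -1 * (k1 θ h y (y + -1 * s) / c))) by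
    simp only [Ph, one_mul, neg_mul, neg_neg, ← sub_eq_add_neg, div_neg,
      div_div_div_cancel_right₀ c0]
    ring, norm_mul, Complex.norm_two, ← le_div_iff₀ ρ0]
  refine (mul_le_mul_of_nonneg_left key (by norm_num)).trans (le_of_eq ?_)
  ring

end Vale.Agent.P097W
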