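import Vale.Agent.P097W.Defs

/-!
# P097W: peaks of the loss function and the envelope
-/

set_option linter.all false

noncomputable section

namespace Vale.Agent.P097W

open Filter Topology Set Metric

namespace Pk

theorem sub_mul (m : ℕ) {x y : ℝ} (hx : 0 ≤ x) (hy : 0 ≤ y) :
    max ((x * y) ^ m) (x * y) ≤ max (x ^ m) x * max (y ^ m) y := by
  have h1 : 0 ≤ max (x ^ m) x := le_max_of_le_right hx
  refine max_le ?_ ?_
  · rw [mul_pow]
    exact mul_le_mul (le_max_left _ _) (le_max_left _ _) (pow_nonneg hy _) h1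
  · exact mul_le_mul (le_max_right _ _) (le_max_right _ _) hy h1

theorem ex (η : ℝ → ℝ) (u₀ : ℝ) (m : ℕ) (hm : 1 ≤ m) (h0 : ∀ v ∈ Ioo 0 u₀, 0 ≤ η v)
    (C : ℝ) (hC : ∀ v ∈ Ioo 0 u₀, η v ^ m ≤ C * v) (S : ℝ) (hS : S ∈ Ioo 0 u₀) (hp : 0 < η S) :
    ∃ u ∈ Ioo 0 u₀, ∀ v ∈ Ioo 0 u₀, η v ^ m * max ((u / S) ^ m) (u / S) ≤
      (2 * η u) ^ m * max ((v / S) ^ m) (v / S) := by
  have S0 := hS.1
  set F : ℝ → ℝ := fun v => η v ^ m / max ((v / S) ^ m) (v / S) with hF
  have pos : ∀ v ∈ Ioo 0 u₀, 0 < max ((v / S) ^ m) (v / S) := fun v hv =>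
    lt_max_of_lt_right (div_pos hv.1 S0)
  have bd : BddAbove (F '' Ioo 0 u₀) := by
    refine ⟨|C| * S, ?_⟩
    rintro _ ⟨v, hv, rfl⟩
    show η v ^ m / max ((v / S) ^ m) (v / S) ≤ |C| * S
    rw [div_le_iff₀ (pos v hv)]
    have a : η v ^ m ≤ |C| * v := (hC v hv).trans (mul_le_mul_of_nonneg_right (le_abs_self C) hv.1.le)
    have b : |C| * S * (v / S) = |C| * v := by field_simp
    calc η v ^ m ≤ |C| * S * (v / S) := by rw [b]; exact a
      _ ≤ _ := mul_le_mul_of_nonneg_left (le_max_right _ _) (by positivity)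
  have FS : 0 < F S := div_pos (pow_pos hp m) (pos S hS)
  have σ0 : 0 < sSup (F '' Ioo 0 u₀) := FS.trans_le (le_csSup bd ⟨S, hS, rfl⟩)
  have two : (1 : ℝ) < 2 ^ m := one_lt_pow₀ (by norm_num) (by omega)
  have lt : sSup (F '' Ioo 0 u₀) / 2 ^ m < sSup (F '' Ioo 0 u₀) := div_lt_self σ0 two
  have ne : (F '' Ioo 0 u₀).Nonempty := ⟨F S, S, hS, rfl⟩
  obtain ⟨_, ⟨u, hu, rfl⟩, hlt⟩ := exists_lt_of_lt_csSup ne lt
  refine ⟨u, hu, fun v hv => ?_⟩
  have a : F v ≤ sSup (F '' Ioo 0 u₀) := le_csSup bd ⟨v, hv, rfl⟩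
  rw [div_lt_iff₀ (by positivity)] at hlt
  have b : F v ≤ F u * 2 ^ m := a.trans hlt.le
  have c : η v ^ m / max ((v / S) ^ m) (v / S) ≤
      (2 * η u) ^ m / max ((u / S) ^ m) (u / S) := by
    refine b.trans (le_of_eq ?_)
    show η u ^ m / max ((u / S) ^ m) (u / S) * 2 ^ m = _
    rw [mul_pow]; ring
  rwa [div_le_div_iff₀ (pos v hv) (pos u hu)] at c

theorem one (η : ℝ → ℝ) (u₀ : ℝ) (m : ℕ) (hm : 1 ≤ m) (h0 : ∀ v ∈ Ioo 0 u₀, 0 ≤ η v)
    (C : ℝ) (hC : ∀ v ∈ Ioo 0 u₀, η v ^ m ≤ C * v)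
    (hΛ : ∀ Λ : ℝ, ∃ S ∈ Ioo 0 u₀, Λ * S < η S) (Λ : ℝ) : ∃ u, Peak η u₀ m u ∧ Λ * u ≤ η u := by
  obtain ⟨S, hS, hl⟩ := hΛ (2 * |Λ|)
  have S0 := hS.1
  have hp : 0 < η S := lt_of_le_of_lt (by positivity) hl
  obtain ⟨u, hu, k⟩ := ex η u₀ m hm h0 C hC S hS hp
  have u0 := hu.1
  have m0 : m ≠ 0 := by omega
  have e0 := h0 u hu
  have pu : 0 < max ((u / S) ^ m) (u / S) := lt_max_of_lt_right (div_pos u0 S0)
  have key : ∀ v ∈ Ioo 0 u₀, η v ^ m ≤ (2 * η u) ^ m * max ((v / u) ^ m) (v / u) := by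
    intro v hv
    have v0 := hv.1
    have a := sub_mul m (x := v / u) (y := u / S) (by positivity) (by positivity)
    have b : v / u * (u / S) = v / S := by field_simp
    rw [b] at a
    refine le_of_mul_le_mul_right ((k v hv).trans ?_) pu
    rw [mul_assoc]
    exact mul_le_mul_of_nonneg_left a (by positivity)
  refine ⟨u, ⟨hu, fun v hv => ⟨fun h => ?_, fun h => ?_⟩⟩, ?_⟩
  · have v0 := hv.1
    have a := key v hv
    have b : 1 ≤ v / u := (one_le_div u0).2 h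
    rw [max_eq_left (le_self_pow₀ b m0), ← mul_pow] at a
    have c := (pow_le_pow_iff_left₀ (h0 v hv) (by positivity) m0).1 a
    calc η v * u ≤ 2 * η u * (v / u) * u := mul_le_mul_of_nonneg_right c u0.le
      _ = _ := by field_simp
  · have v0 := hv.1
    have a := key v hv
    have b : v / u ≤ 1 := (div_le_one u0).2 h
    rw [max_eq_right (pow_le_of_le_one (by positivity) b m0)] at a
    calc η v ^ m * u ≤ (2 * η u) ^ m * (v / u) * u := mul_le_mul_of_nonneg_right a u0.le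
      _ = _ := by field_simp
  · have a := k S hS
    rw [div_self S0.ne', one_pow, max_self, mul_one] at a
    have b : (η S * (u / S)) ^ m ≤ (2 * η u) ^ m := by
      rw [mul_pow]
      exact (mul_le_mul_of_nonneg_left (le_max_left _ _) (by positivity)).trans a
    have c := (pow_le_pow_iff_left₀ (by positivity) (by positivity) m0).1 b
    have d : 2 * |Λ| * S * (u / S) ≤ η S * (u / S) :=
      mul_le_mul_of_nonneg_right hl.le (by positivity)
    have e : 2 * |Λ| * S * (u / S) = 2 * (|Λ| * u) := by field_simp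
    have f : Λ * u ≤ |Λ| * u := mul_le_mul_of_nonneg_right (le_abs_self _) u0.le
    linarith

theorem two (η : ℝ → ℝ) (u₀ : ℝ) (m : ℕ) (hm : 1 ≤ m) (h0 : ∀ v ∈ Ioo 0 u₀, 0 ≤ η v) (u : ℝ)
    (hP : Peak η u₀ m u) (hd : u ≤ η u) : Wt (wt m u (η u)) ∧ ∀ τ L v : ℝ, 0 < τ → 1 ≤ L →
    v ∈ Ioo 0 u₀ → v * wt m u (η u) τ * L ^ m ≤ τ → η v ≤ 2 * τ / L := by
  obtain ⟨hu, k⟩ := hP
  have u0 := hu.1
  have d0 : 0 < η u := u0.trans_le hd
  have A1 : 1 ≤ η u / u := (one_le_div u0).2 hd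
  refine ⟨⟨fun t => ?_, fun s hs t ht hst => ?_⟩, fun τ L v τ0 L1 hv h => ?_⟩
  · exact one_le_mul_of_one_le_of_one_le A1 (one_le_pow₀ (le_max_left _ _))
  · have s0 : 0 < s := hs
    refine mul_le_mul_of_nonneg_left ?_ (by positivity)
    refine pow_le_pow_left₀ (le_max_of_le_left zero_le_one) (max_le_max le_rfl ?_) _
    exact div_le_div_of_nonneg_left d0.le s0 hst
  · obtain ⟨n, rfl⟩ : ∃ n, m = n + 1 := ⟨m - 1, by omega⟩
    have v0 := hv.1
    have L0 : 0 < L := one_pos.trans_le L1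
    unfold wt at h
    rw [Nat.add_sub_cancel] at h
    rcases le_total u v with c | c
    · have a := (k v hv).1 c
      have b : v * (η u / u * 1) * L ≤ τ := by
        refine le_trans ?_ h
        refine mul_le_mul (mul_le_mul_of_nonneg_left (mul_le_mul_of_nonneg_left
          (one_le_pow₀ (le_max_left _ _)) (by positivity)) v0.le)
          (le_self_pow₀ L1 (by omega)) L0.le (by positivity)
      rw [le_div_iff₀ L0]
      refine le_of_mul_le_mul_right ?_ u0
      have e : v * (η u / u * 1) * L * u = η u * v * L := by field_simp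
      have f := mul_le_mul_of_nonneg_right b u0.le
      have g := mul_le_mul_of_nonneg_right a L0.le
      nlinarith
    · have a := (k v hv).2 c
      have b : v * (η u / u * (η u / τ) ^ n) * L ^ (n + 1) ≤ τ := by
        refine le_trans ?_ h
        refine mul_le_mul_of_nonneg_right (mul_le_mul_of_nonneg_left (mul_le_mul_of_nonneg_left
          (pow_le_pow_left₀ (by positivity) (le_max_right _ _) _) (by positivity)) v0.le)
          (by positivity)
      refine (pow_le_pow_iff_left₀ (h0 v hv) (by positivity) (Nat.succ_ne_zero n)).1 ?_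
      refine le_of_mul_le_mul_right (a.trans ?_) u0
      have e : (2 * η u) ^ (n + 1) * v = v * (η u / u * (η u / τ) ^ n) * L ^ (n + 1) *
          (2 ^ (n + 1) * τ ^ n * u / L ^ (n + 1)) := by
        rw [mul_pow, div_pow]; field_simp; ring
      have f : (2 * τ / L) ^ (n + 1) * u = τ * (2 ^ (n + 1) * τ ^ n * u / L ^ (n + 1)) := by
        rw [div_pow, mul_pow]; field_simp; ring
      rw [e, Nat.succ_eq_add_one, f]
      exact mul_le_mul_of_nonneg_right b (by positivity)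

end Pk

theorem peak : S_PEAK := fun η u₀ m hm h0 =>
  ⟨fun ⟨C, hC⟩ hΛ Λ => Pk.one η u₀ m hm h0 C hC hΛ Λ, fun u hP hd => Pk.two η u₀ m hm h0 u hP hd⟩

end Vale.Agent.P097W
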