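import Vale.Agent.P097W.Defs
import Vale.Agent.P097M.Sumk

/-!
# P097W, row 1609: the sum over the children
-/

set_option linter.all false

noncomputable section

namespace Vale.Agent.P097W

open Filter Topology Set Metric
open Vale.Agent.P097T (Strip)
open Vale.Agent.P097M

namespace SumqAux

open SumkAux (calm diffE bottom exL log_le)

variable {r lam C₄ C₁ ξ τ M u δ η s t t1 B : ℝ} {g Q : ℂ → ℂ} {n : ℕ} {P : ℂ → ℝ}

theorem child (hI : S_INT) (hG : S_GE) (gq : GQ r g Q) (td : TDq r g Q lam C₄ n ξ τ B u P)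
    (cone : Cone r g Q ξ τ M) (sup : SupB r g Q n ξ τ (C₁ * M ^ 2)) (hn : 1 ≤ n)
    (hτr : τ ≤ r / 4) (hC : 1 ≤ C₁) (hC₄ : 1 ≤ C₄) (hM : 4 ≤ M) (hu : 0 < u) (h0 : 0 < t1)
    (ht : τ = 2 * n ^ 2 * t1) (huG : u * (2 * (C₁ * M) / t1) ≤ 1 / 40) (hδ : 0 ≤ δ)
    (hδM : 16384 * C₁ ≤ δ ^ 3 * M ^ 2) {η' : ℝ} (hη : |η - ξ| ≤ τ / 8)
    (hη' : |η' - η| ≤ τ / (8 * n ^ 2)) (hP : 0 ≤ P (pt r η' t1)) (h1 : t1 ≤ t) (h2 : t ≤ 2 * t1) :
    Gs g Q (pt r η t) * t ^ 2 ≤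
      76 * C₄ ^ 2 * Real.log (2 * n ^ 2) * (t1 / u ^ 2) * P (pt r η' t1) +
        (608 * C₄ * (C₁ * M) ^ 4 * u ^ 2 / t1 ^ 2 + 19 * M ^ 2 / n ^ 4 + 2 * δ ^ 2 * M ^ 2) := by
  have hn1 : (1 : ℝ) ≤ (n : ℝ) ^ 2 := one_le_pow₀ (by exact_mod_cast hn)
  have hn0 : (0 : ℝ) < n := by exact_mod_cast hn
  have hτ : 0 < τ := by rw [ht]; positivity
  have ht' : τ / (2 * n ^ 2) = t1 := by rw [ht]; field_simp
  have ht8 : τ / (8 * n ^ 2) = t1 / 4 := by rw [← ht']; ring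
  have t0 : 0 < t := h0.trans_le h1
  have htτ : t ≤ τ := by rw [ht]; nlinarith
  have hM0 : 0 < C₁ * M := by nlinarith
  obtain ⟨p, hp⟩ : ∃ p, p = P (pt r η' t1) := ⟨_, rfl⟩
  rw [← hp] at hP ⊢
  obtain ⟨α, hα⟩ : ∃ α, α = C₄ ^ 2 * p / (t1 * u ^ 2) := ⟨_, rfl⟩
  obtain ⟨β, hβ⟩ : ∃ β, β = 128 * C₄ * (C₁ * M) ^ 4 * u ^ 2 := ⟨_, rfl⟩
  have α0 : 0 ≤ α := by rw [hα]; positivity
  have β0 : 0 ≤ β := by rw [hβ]; positivity
  have hint := hI (E1 g Q) r η t τ (fun s => α * Real.log s - β / 4 * (s ^ 4)⁻¹)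
    (fun s => α / s + β / s ^ 5) htτ (by
      rintro s ⟨s1, s2⟩
      have s0 : 0 < s := t0.trans_le s1
      have cm := calm sup hτr hC hM h0 ht' hη (h1.trans s1) s2
      have te : pt r η s ∈ Tent r ξ τ (n ^ 2) := by
        refine ⟨hη.trans (by linarith), ?_, ?_⟩ <;> simp only [pt_im, sub_sub_cancel]
        · linarith
        · exact s2
      refine ⟨diffE gq (cm.sub (mem_ball_self cm.pos)), ?_, ?_⟩
      · have d := ((Real.hasDerivAt_log s0.ne').const_mul α).sub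
          (((hasDerivAt_pow 4 s).inv (pow_ne_zero 4 s0.ne')).const_mul (β / 4))
        refine HasDerivAt.congr_deriv d ?_
        norm_num; field_simp; ring
      · have x := td.xi _ te _ _ cm (le_trans (by gcongr; exact h1.trans s1) huG)
        have l := td.lo _ te η' (by simp only [pt_im, sub_sub_cancel]; linarith) hη'
        simp only [pt_im, sub_sub_cancel, ht', ← hp] at x l
        refine x.trans ?_
        rw [mul_add]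
        refine add_le_add ?_ (le_of_eq (by rw [hβ]; field_simp; norm_num))
        have l' : P (pt r η s) ≤ C₄ * s * p / t1 := (le_div_iff₀ h0).2 l
        calc _ ≤ C₄ * (C₄ * s * p / t1 / (u ^ 2 * s ^ 2)) := by gcongr
          _ = _ := by rw [hα]; field_simp)
  have hlog : Real.log τ - Real.log t ≤ Real.log (2 * n ^ 2) := by
    rw [ht, Real.log_mul (by positivity) h0.ne']
    linarith [Real.log_le_log h0 h1]
  have l0 : 0 ≤ Real.log (2 * n ^ 2) := Real.log_nonneg (by linarith)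
  have hE : ‖E1 g Q (pt r η t)‖ ≤ α * Real.log (2 * n ^ 2) + β / 4 * (t ^ 4)⁻¹ + M ^ 2 / τ ^ 2 := by
    have a := norm_le_insert' (E1 g Q (pt r η t)) (E1 g Q (pt r η τ))
    have b := bottom (g := g) (Q := Q) cone hτ hτr hη
    have c : 0 ≤ β / 4 * (τ ^ 4)⁻¹ := by positivity
    have d := mul_le_mul_of_nonneg_left hlog α0
    linarith
  have ge := hG r g Q _ _ _ (δ * M / t) gq (calm sup hτr hC hM h0 ht' hη h1 htτ) (by positivity) (by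
    have e : (δ * M / t) ^ 3 * (t / 8) ^ 2 = δ ^ 3 * M ^ 2 * M / 64 / t := by field_simp; norm_num
    rw [e, ← mul_div_assoc]
    gcongr
    nlinarith)
  have b1 : α * Real.log (2 * n ^ 2) * t ^ 2 ≤
      4 * C₄ ^ 2 * Real.log (2 * n ^ 2) * (t1 / u ^ 2) * p :=
    calc _ ≤ α * Real.log (2 * n ^ 2) * (2 * t1) ^ 2 := by gcongr
      _ = _ := by rw [hα]; field_simp; ring
  have b2 : β / 4 * (t ^ 4)⁻¹ * t ^ 2 ≤ 32 * C₄ * (C₁ * M) ^ 4 * u ^ 2 / t1 ^ 2 :=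
    calc _ = β / 4 / t ^ 2 := by field_simp
      _ ≤ β / 4 / t1 ^ 2 := by gcongr
      _ = _ := by rw [hβ]; ring
  have b3 : M ^ 2 / τ ^ 2 * t ^ 2 ≤ M ^ 2 / n ^ 4 :=
    calc _ ≤ M ^ 2 / τ ^ 2 * (2 * t1) ^ 2 := by gcongr
      _ = _ := by rw [ht]; field_simp
  have b4 : (δ * M / t) ^ 2 * t ^ 2 = δ ^ 2 * M ^ 2 := by field_simp
  calc _ ≤ (19 * (α * Real.log (2 * n ^ 2) + β / 4 * (t ^ 4)⁻¹ + M ^ 2 / τ ^ 2) +
        2 * (δ * M / t) ^ 2) * t ^ 2 := by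
        refine mul_le_mul_of_nonneg_right (ge.trans ?_) (by positivity)
        linarith
    _ = 19 * (α * Real.log (2 * n ^ 2) * t ^ 2) + 19 * (β / 4 * (t ^ 4)⁻¹ * t ^ 2) +
        19 * (M ^ 2 / τ ^ 2 * t ^ 2) + 2 * ((δ * M / t) ^ 2 * t ^ 2) := by ring
    _ ≤ 19 * (4 * C₄ ^ 2 * Real.log (2 * n ^ 2) * (t1 / u ^ 2) * p) +
        19 * (32 * C₄ * (C₁ * M) ^ 4 * u ^ 2 / t1 ^ 2) + 19 * (M ^ 2 / n ^ 4) +
        2 * (δ ^ 2 * M ^ 2) := by rw [b4]; gcongr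
    _ = _ := by ring

theorem total (hI : S_INT) (hG : S_GE) (gq : GQ r g Q) (td : TDq r g Q lam C₄ n ξ τ B u P)
    (cone : Cone r g Q ξ τ M) (sup : SupB r g Q n ξ τ (C₁ * M ^ 2)) (hn : 1 ≤ n)
    (hτr : τ ≤ r / 4) (hC : 1 ≤ C₁) (hC₄ : 1 ≤ C₄) (hM : 4 ≤ M) (hu : 0 < u) (h0 : 0 < t1)
    (ht : τ = 2 * n ^ 2 * t1) (huG : u * (2 * (C₁ * M) / t1) ≤ 1 / 40) (hδ : 0 ≤ δ)
    (hδM : 16384 * C₁ ≤ δ ^ 3 * M ^ 2) (l0 : 0 < lam) (l1 : lam ≤ 1 / 8) :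
    SumB r g Q lam n ξ τ (n ^ 2 * (76 * C₄ ^ 3 * Real.log (2 * n ^ 2) *
      (n * (t1 / u ^ 2) * B) + (608 * C₄ * (C₁ * M) ^ 4 * u ^ 2 / t1 ^ 2 +
        19 * M ^ 2 / n ^ 4 + 2 * δ ^ 2 * M ^ 2))) := by
  intro ys hys
  have hn1 : (1 : ℝ) ≤ (n : ℝ) ^ 2 := one_le_pow₀ (by exact_mod_cast hn)
  have hn0 : (0 : ℝ) < n := by exact_mod_cast hn
  have hτ : 0 < τ := by rw [ht]; positivity
  have ht' : τ / (2 * n ^ 2) = t1 := by rw [ht]; field_simp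
  have ht1 : τ / n ^ 2 = 2 * t1 := by rw [ht]; field_simp
  have ht8 : τ / (8 * n ^ 2) = t1 / 4 := by rw [← ht']; ring
  obtain ⟨h, hh⟩ : ∃ h, h = lam * τ / n ^ 2 := ⟨_, rfl⟩
  have h1 : h = lam * (2 * t1) := by rw [hh, mul_div_assoc, ht1]
  have h2 : 0 < h := by rw [h1]; positivity
  have h3 : h ≤ t1 / 4 := by rw [h1]; nlinarith
  have h4 : n ^ 2 * h ≤ τ / 8 := by rw [ht]; nlinarith
  have hs := td.sum
  rw [← hh, ht'] at hs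
  have lg : 0 ≤ Real.log (2 * n ^ 2) := Real.log_nonneg (by linarith)
  refine (Finset.sum_le_sum (g := fun m : ℕ => 76 * C₄ ^ 2 * Real.log (2 * n ^ 2) * (t1 / u ^ 2) *
    P (pt r (ξ + m * h) t1) + (608 * C₄ * (C₁ * M) ^ 4 * u ^ 2 / t1 ^ 2 + 19 * M ^ 2 / n ^ 4 +
      2 * δ ^ 2 * M ^ 2)) fun m hm => ?_).trans ?_
  · have hm' := Finset.mem_range.1 hm
    obtain ⟨a, b, c⟩ := hys m hm'
    rw [← hh] at c
    rw [ht'] at a
    rw [ht1] at b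
    have m1 : (m : ℝ) + 1 ≤ n ^ 2 := by exact_mod_cast hm'
    have m2 : 0 ≤ m * h := by positivity
    have m3 : m * h + h ≤ τ / 8 := by nlinarith
    obtain ⟨c1, c2⟩ := abs_le.1 c
    have hP := td.nn (pt r (ξ + m * h) t1) ⟨by
      rw [pt_re, add_sub_cancel_left, abs_of_nonneg m2]; linarith, by
      simp only [pt_im, sub_sub_cancel]; linarith, by
      simp only [pt_im, sub_sub_cancel]; rw [ht]; nlinarith⟩
    have e := child hI hG gq td cone sup hn hτr hC hC₄ hM hu h0 ht huG hδ hδM (η := (ys m).re)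
      (abs_le.2 ⟨by linarith, by linarith⟩) (abs_le.2 ⟨by linarith, by linarith⟩) hP a b
    rwa [pt_self] at e
  · rw [Finset.sum_add_distrib, ← Finset.mul_sum, Finset.sum_const, Finset.card_range,
      nsmul_eq_mul, mul_add (n ^ 2 : ℝ), Nat.cast_pow]
    refine add_le_add ?_ le_rfl
    calc _ ≤ 76 * C₄ ^ 2 * Real.log (2 * n ^ 2) * (t1 / u ^ 2) *
          (C₄ * n ^ 3 * B) := by gcongr
      _ = _ := by ring

theorem fin {ε N L Λ : ℝ} (hC : 1 ≤ C₁) (hC₄ : 1 ≤ C₄) (hε : 0 < ε) (d0 : 0 < δ) (d1 : δ ≤ 1)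
    (d2 : δ ≤ ε / 8) (hn : 1 ≤ n) (L1 : 1 ≤ L) (hL : 1368 * C₄ ^ 3 * L ≤ ε * n) (hΛ : Λ ≤ 3 * L)
    (N0 : 0 < N) (hN : 9728 * C₄ * C₁ ^ 4 * n ^ 4 ≤ N ^ 2 * ε) (M0 : 0 < M) (h0 : 0 < t1)
    (ht : τ = 2 * n ^ 2 * t1) :
    76 * C₄ ^ 3 * Λ * (n * (t1 / (τ / (M * N)) ^ 2) *
      (2 * τ / N ^ 2 + (τ / (M * N)) ^ 2 * M ^ 2 / τ)) +
      (608 * C₄ * (C₁ * M) ^ 4 * (τ / (M * N)) ^ 2 / t1 ^ 2 + 19 * M ^ 2 / n ^ 4 +
        2 * δ ^ 2 * M ^ 2) ≤ ε * M ^ 2 := by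
  have n1 : (1 : ℝ) ≤ n := by exact_mod_cast hn
  have e1 : n * (t1 / (τ / (M * N)) ^ 2) * (2 * τ / N ^ 2 + (τ / (M * N)) ^ 2 * M ^ 2 / τ) =
      3 * M ^ 2 / (2 * n) := by rw [ht]; field_simp; ring
  have b1 : 76 * C₄ ^ 3 * (3 * L) * (3 * M ^ 2 / (2 * n)) ≤ ε / 4 * M ^ 2 :=
    calc _ = 1368 * C₄ ^ 3 * L * (M ^ 2 / (4 * n)) := by field_simp; norm_num
      _ ≤ ε * n * (M ^ 2 / (4 * n)) := by gcongr
      _ = _ := by field_simp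
  have b3 : 608 * C₄ * (C₁ * M) ^ 4 * (τ / (M * N)) ^ 2 / t1 ^ 2 ≤ ε / 4 * M ^ 2 :=
    calc _ = 9728 * C₄ * C₁ ^ 4 * n ^ 4 * (M ^ 2 / (4 * N ^ 2)) := by
          rw [ht]; field_simp; norm_num
      _ ≤ N ^ 2 * ε * (M ^ 2 / (4 * N ^ 2)) := by gcongr
      _ = _ := by field_simp
  have b4 : 19 * M ^ 2 / n ^ 4 ≤ ε / 4 * M ^ 2 := by
    have a : (76 : ℝ) ≤ ε * n := by
      refine le_trans ?_ hL
      calc (76 : ℝ) ≤ 1368 * 1 ^ 3 * 1 := by norm_num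
        _ ≤ _ := by gcongr
    calc _ ≤ 19 * M ^ 2 / n := by gcongr; exact le_self_pow₀ n1 (by norm_num)
      _ = 76 * (M ^ 2 / (4 * n)) := by field_simp; norm_num
      _ ≤ ε * n * (M ^ 2 / (4 * n)) := by gcongr
      _ = _ := by field_simp
  have b5 : 2 * δ ^ 2 * M ^ 2 ≤ ε / 4 * M ^ 2 :=
    mul_le_mul_of_nonneg_right (by nlinarith) (by positivity)
  rw [e1]
  calc _ ≤ 76 * C₄ ^ 3 * (3 * L) * (3 * M ^ 2 / (2 * n)) + _ := by gcongr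
    _ ≤ _ := by linarith

end SumqAux

open SumqAux SumkAux in
theorem sumq (hI : S_INT) (hG : S_GE) : S_SUMQ := by
  intro C₄ c₄ C₁ ε m hC₄ hc₄ hC hε hm
  obtain ⟨δ, d0, d1, d2⟩ : ∃ δ : ℝ, 0 < δ ∧ δ ≤ 1 ∧ δ ≤ ε / 8 :=
    ⟨min 1 (ε / 8), by positivity, min_le_left _ _, min_le_right _ _⟩
  obtain ⟨L, hL, hL'⟩ := exL (K := 1368 * C₄ ^ 3) (by positivity) hε
  have hΛ := log_le hL
  have e4 : (4 : ℝ) ^ L = ((2 ^ L : ℕ) : ℝ) ^ 2 := by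
    push_cast; rw [← pow_mul, mul_comm, pow_mul]; norm_num
  have e2 : (2 : ℝ) ^ L = ((2 ^ L : ℕ) : ℝ) := by push_cast; rfl
  rw [e2] at hL'
  have hn : 1 ≤ 2 ^ L := Nat.one_le_two_pow
  have L1 : (1 : ℝ) ≤ L := by exact_mod_cast hL
  obtain ⟨N, hN⟩ : ∃ N : ℝ, N = 1 + 160 * C₁ * ((2 ^ L : ℕ) : ℝ) ^ 2 +
    2 * ((2 ^ L : ℕ) : ℝ) ^ 4 / c₄ + 9728 * C₄ * C₁ ^ 4 * ((2 ^ L : ℕ) : ℝ) ^ 4 / ε := ⟨_, rfl⟩
  refine ⟨L, (N ^ 2) ^ m + 4 + 16384 * C₁ / δ ^ 3, hL, ?_⟩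
  rw [e4]
  clear e2 e4
  generalize 2 ^ L = n at *
  intro r lam e₀ ξ τ M a g Q R gq l0 l1 tdb en a1 hτ hτr hτe hA cone sup
  have n1 : (1 : ℝ) ≤ n := by exact_mod_cast hn
  have p1 : 0 ≤ 160 * C₁ * (n : ℝ) ^ 2 := by positivity
  have p2 : 0 ≤ 2 * (n : ℝ) ^ 4 / c₄ := by positivity
  have p3 : 0 ≤ 9728 * C₄ * C₁ ^ 4 * (n : ℝ) ^ 4 / ε := by positivity
  have p4 : 0 ≤ 16384 * C₁ / δ ^ 3 := by positivity
  have N1 : 1 ≤ N := by linarith only [hN, p1, p2, p3]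
  have N0 : 0 < N := by linarith only [N1]
  have N2 : N ≤ N ^ 2 := le_self_pow₀ N1 two_ne_zero
  have N3 : N ^ 2 ≤ (N ^ 2) ^ m := le_self_pow₀ (N1.trans N2) (by omega)
  have Na : 160 * C₁ * (n : ℝ) ^ 2 ≤ N := by linarith only [hN, p2, p3]
  have Nb : 2 * (n : ℝ) ^ 4 ≤ N ^ 2 * c₄ := (div_le_iff₀ hc₄).1 (by linarith only [hN, p1, p3, N2])
  have Nc : 9728 * C₄ * C₁ ^ 4 * (n : ℝ) ^ 4 ≤ N ^ 2 * ε :=
    (div_le_iff₀ hε).1 (by linarith only [hN, p1, p2, N2])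
  have hA' : (N ^ 2) ^ m + 4 + 16384 * C₁ / δ ^ 3 ≤ M :=
    (le_mul_of_one_le_right (by positivity) a1).trans hA
  have hM : 4 ≤ M := by linarith only [hA', N3, N2, N1, p4]
  have M0 : 0 < M := by linarith only [hM]
  have MN : N ≤ M := by linarith only [hA', N3, N2, p4]
  have Ma : (N ^ 2) ^ m * a ≤ M :=
    le_trans (mul_le_mul_of_nonneg_right (by linarith only [p4]) (by linarith only [a1])) hA
  have Mb : 16384 * C₁ ≤ M * δ ^ 3 :=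
    (div_le_iff₀ (by positivity)).1 (by linarith only [hA', N3, N2, N1])
  obtain ⟨t1, h0, ht⟩ : ∃ t1 : ℝ, 0 < t1 ∧ τ = 2 * n ^ 2 * t1 :=
    ⟨τ / (2 * n ^ 2), by positivity, by field_simp⟩
  have hR := en (N ^ 2) (τ / (M * N)) (N1.trans N2) (by positivity)
    (calc _ = τ / (M * N) * ((N ^ 2) ^ m * a) := by ring
      _ ≤ τ / (M * 1) * M := by gcongr
      _ = τ := by field_simp)
  obtain ⟨P, td⟩ := tdb n ξ τ M (τ / (M * N)) (2 * τ / N ^ 2) hn hτ hτr (by linarith only [hM]) cone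
    ((div_le_self (by positivity) (N1.trans N2)).trans_lt hτe) hR ⟨by positivity,
      calc _ ≤ τ / (N * N) := by gcongr
        _ ≤ 2 * τ / N ^ 2 := by rw [← sq]; gcongr; linarith only [hτ],
      calc _ = 2 * (n : ℝ) ^ 4 * (τ / N ^ 2) := by ring
        _ ≤ N ^ 2 * c₄ * (τ / N ^ 2) := by gcongr
        _ = _ := by field_simp,
      calc _ = (n : ℝ) ^ 4 * (τ ^ 2 / N ^ 2) := by field_simp
        _ ≤ N ^ 2 * c₄ * (τ ^ 2 / N ^ 2) := by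
          gcongr; linarith only [Nb, pow_nonneg (zero_le_one.trans n1) 4]
        _ = _ := by field_simp⟩
  have hs := SumqAux.total hI hG gq td cone sup hn hτr hC hC₄ hM (by positivity) h0 ht
    (calc _ = 160 * C₁ * (n : ℝ) ^ 2 / (40 * N) := by rw [ht]; field_simp; norm_num
      _ ≤ N / (40 * N) := by gcongr
      _ = _ := by field_simp) d0.le
    (Mb.trans (by
      rw [mul_comm]; gcongr; exact le_self_pow₀ (by linarith only [hM]) two_ne_zero)) l0 l1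
  intro ys hys
  refine (hs ys hys).trans ?_
  rw [show ε * (n : ℝ) ^ 2 * M ^ 2 = n ^ 2 * (ε * M ^ 2) by ring]
  exact mul_le_mul_of_nonneg_left
    (SumqAux.fin hC hC₄ hε d0 d1 d2 hn L1 hL' hΛ N0 Nc M0 h0 ht) (by positivity)

end Vale.Agent.P097W
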