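import Vale.Agent.P097W.E1

/-!
# P097W: the crude maximum in the tent (row 1607)
-/

set_option linter.all false

noncomputable section

namespace Vale.Agent.P097W

open Filter Topology Set Metric
open Vale.Agent.P097T (Strip)
open Vale.Agent.P097M Vale.Agent.P097M.SupP

namespace Sup0

variable {r ξ τ M T : ℝ} {g Q : ℂ → ℂ}

theorem ex_mx (hG : GQ r g Q) (h0 : 0 < τ) (h1 : τ ≤ r / 4) (hT : 1 ≤ T) (j : ℕ) :
    ∃ y ∈ Tent r ξ τ T, ∀ z ∈ Tent r ξ τ T,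
      Gs g Q z * (de r ξ τ T z / τ) ^ j ≤ Gs g Q y * (de r ξ τ T y / τ) ^ j := by
  have hc : IsCompact (Tent r ξ τ T) := by
    have e : Tent r ξ τ T = Icc (ξ - τ / 2) (ξ + τ / 2) ×ℂ Icc (r - τ) (r - τ / (8 * T)) := by
      ext y
      simp only [Tent, mem_setOf_eq, Complex.mem_reProdIm, mem_Icc, abs_le]
      constructor
      · rintro ⟨⟨a, b⟩, c, d⟩
        exact ⟨⟨by linarith, by linarith⟩, by linarith, by linarith⟩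
      · rintro ⟨⟨a, b⟩, c, d⟩
        exact ⟨⟨by linarith, by linarith⟩, by linarith, by linarith⟩
    rw [e]
    exact isCompact_Icc.reProdIm isCompact_Icc
  have hne : (Tent r ξ τ T).Nonempty := by
    refine ⟨pt r ξ τ, by simp; positivity, ?_, by simp⟩
    rw [pt_im, sub_sub_cancel, div_le_iff₀ (by positivity)]
    nlinarith
  have hs := tent_sub (ξ := ξ) h0 h1 hT
  have c1 : ContinuousOn (Gs g Q) (Tent r ξ τ T) :=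
    (((hG.dg.continuousOn.mono hs).norm.pow 2).add (hG.dQ.continuousOn.mono hs).norm)
  have c2 : Continuous fun z => de r ξ τ T z / τ := by unfold de; fun_prop
  obtain ⟨y, hy, h⟩ := hc.exists_isMaxOn hne (c1.mul (c2.continuousOn.pow j))
  exact ⟨y, hy, fun z hz => h hz⟩

theorem calm0 (hC : Cone r g Q ξ τ M) (h0 : 0 < τ) (h1 : τ ≤ r / 4) (hT : 1 ≤ T) {d G η s : ℝ}
    (hW : ∀ z ∈ Tent r ξ τ T, d / 2 ≤ de r ξ τ T z → Gs g Q z ≤ G ^ 2) (d0 : 0 < d)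
    (d1 : d ≤ τ / 2 - |η - ξ|) (d2 : d ≤ s - τ / (8 * T)) (s1 : s ≤ τ)
    (g2 : 2 * M ^ 2 ≤ G ^ 2 * τ ^ 2) (g3 : 1 ≤ G * (d / 2)) :
    Cm r g Q (pt r η s) (d / 2) G := by
  have hp : 0 < τ / (8 * T) := by positivity
  have ha := abs_nonneg (η - ξ)
  have near : ∀ z ∈ ball (pt r η s) (d / 2), |z.re - η| ≤ d / 2 ∧ |z.im - (r - s)| ≤ d / 2 := by
    intro z hz
    rw [mem_ball, dist_eq_norm] at hz
    exact ⟨(Complex.abs_re_le_norm (z - pt r η s)).trans hz.le,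
      (Complex.abs_im_le_norm (z - pt r η s)).trans hz.le⟩
  refine ⟨by positivity, fun z hz => ?_, fun z hz => ?_, g3⟩
  · obtain ⟨a, b⟩ := abs_le.1 (near z hz).2
    exact mem_strip (by linarith) (by linarith)
  · obtain ⟨a, b⟩ := abs_le.1 (near z hz).2
    have c : |z.re - ξ| ≤ d / 2 + |η - ξ| := by
      have := abs_sub_le z.re η ξ
      linarith [(near z hz).1]
    rcases le_total (r - z.im) τ with h | h
    · exact hW z ⟨by linarith, by linarith, h⟩ (le_min (by linarith) (by linarith))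
    · have h2 := cone3 hC h0 h1 h (by linarith) (by linarith)
      exact le_of_mul_le_mul_right (h2.trans g2) (by positivity)

/-- the numerical part -/
theorem num0 {C₄ c₄ c₂ N k B₀ L₀ τ M G t d u : ℝ} (hC : 1 ≤ C₄) (c0 : 0 < c₂) (c1 : c₂ ≤ c₄)
    (hk : 2 ≤ k) (c2 : c₂ * (400 * k ^ 2 * C₄) ≤ 1) (hN : 1 ≤ N) (h0 : 0 < τ)
    (t0 : τ ≤ 8 * N ^ 2 * t) (dp : 0 < d) (d1 : 2 * d ≤ τ)
    (hL : 10240 * k ^ 2 * C₄ ^ 2 * N ^ 4 ≤ c₂ * L₀) (hB : 5120 * C₄ ^ 2 * N ^ 4 ≤ B₀)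
    (hG : k ^ 2 * B₀ * M ^ 2 ≤ G ^ 2 * τ ^ 2) (G0 : 0 < G) (u0 : 0 < u)
    (hu : u ^ 2 * G ^ 2 * τ = c₂ * d) :
    u * G ≤ 1 / 40 ∧ 2 * d / L₀ * N ^ 4 ≤ c₄ * τ ∧ u ^ 2 * M ^ 2 * N ^ 4 ≤ c₄ * τ ^ 2 ∧
    2 * M ^ 2 / τ ^ 2 + C₄ ^ 2 * (τ * (2 * d / L₀ + u ^ 2 * M ^ 2 / τ) / u ^ 2) / (2 * t ^ 2) +
      C₄ * (G ^ 4 * u ^ 2 / (d / 2)) * τ ≤ G ^ 2 / k ^ 2 / 40 := by
  have tp : 0 < t := by
    by_contra hn
    have := mul_nonpos_of_nonneg_of_nonpos (by positivity : 0 ≤ 8 * N ^ 2) (not_lt.1 hn)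
    linarith
  have k2 : 4 ≤ k ^ 2 := by nlinarith
  have n4 : 1 ≤ N ^ 4 := one_le_pow₀ hN
  have q2 : 1 ≤ C₄ ^ 2 := one_le_pow₀ hC
  have q3 : 4 ≤ k ^ 2 * C₄ := by nlinarith
  have c3 : c₂ ≤ 1 / 1600 := by nlinarith
  have q4 : N ^ 4 ≤ C₄ ^ 2 * N ^ 4 := le_mul_of_one_le_left (by positivity) q2
  have q5 : C₄ ^ 2 * N ^ 4 ≤ k ^ 2 * C₄ ^ 2 * N ^ 4 := by
    rw [mul_assoc]
    exact le_mul_of_one_le_left (by positivity) (by linarith)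
  have l1 : N ^ 4 ≤ c₂ * L₀ := by linarith
  have L0 : 0 < L₀ := by
    by_contra hn
    have := mul_nonpos_of_nonneg_of_nonpos c0.le (not_lt.1 hn)
    linarith
  have l2 : c₂ * L₀ ≤ c₄ * L₀ := by gcongr
  have e1 : (u * G) ^ 2 ≤ c₂ := by
    refine le_of_mul_le_mul_right ?_ h0
    rw [mul_pow, hu]
    gcongr
    linarith
  have B0 : 0 < B₀ := by linarith
  obtain ⟨X, hX⟩ : ∃ X, X = G ^ 2 / k ^ 2 := ⟨_, rfl⟩
  have kp : 0 < k ^ 2 := by linarith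
  have eX : G ^ 2 = X * k ^ 2 := by rw [hX]; field_simp
  have X0 : 0 < X := by rw [hX]; positivity
  obtain ⟨μ, hμ⟩ : ∃ μ, μ = M ^ 2 / τ ^ 2 := ⟨_, rfl⟩
  have eμ : M ^ 2 = μ * τ ^ 2 := by rw [hμ]; field_simp
  have μ0 : 0 ≤ μ := by rw [hμ]; positivity
  have m1 : B₀ * μ ≤ X := by
    rw [eX, eμ] at hG
    refine le_of_mul_le_mul_right ?_ (by positivity : 0 < k ^ 2 * τ ^ 2)
    linarith
  have m2 : 5120 * C₄ ^ 2 * N ^ 4 * μ ≤ X := (mul_le_mul_of_nonneg_right hB μ0).trans m1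
  have m3 : N ^ 4 * μ ≤ C₄ ^ 2 * N ^ 4 * μ := mul_le_mul_of_nonneg_right q4 μ0
  have m4 : μ ≤ N ^ 4 * μ := le_mul_of_one_le_left μ0 n4
  refine ⟨?_, ?_, ?_, ?_⟩
  · exact le_of_sq_le_sq (by linarith) (by norm_num)
  · rw [div_mul_eq_mul_div, div_le_iff₀ L0]
    calc 2 * d * N ^ 4 ≤ τ * (c₄ * L₀) := by gcongr; linarith
      _ = _ := by ring
  · have a1 : N ^ 4 * μ ≤ G ^ 2 := by
      have : X ≤ X * k ^ 2 := le_mul_of_one_le_right X0.le (by linarith)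
      have : 0 ≤ N ^ 4 * μ := by positivity
      linarith
    calc u ^ 2 * M ^ 2 * N ^ 4 = u ^ 2 * (N ^ 4 * μ) * τ ^ 2 := by rw [eμ]; ring
      _ ≤ u ^ 2 * G ^ 2 * τ ^ 2 := by gcongr
      _ ≤ c₄ * τ ^ 2 := by rw [← mul_pow]; gcongr; linarith
  · rw [← hX]
    have ed : d = u ^ 2 * G ^ 2 * τ / c₂ := by rw [hu]; field_simp
    have a1 : 2 * M ^ 2 / τ ^ 2 = 2 * μ := by rw [hμ]; ring
    have a2 : τ * (2 * d / L₀ + u ^ 2 * M ^ 2 / τ) / u ^ 2 =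
        τ ^ 2 * (2 * G ^ 2 / (c₂ * L₀) + μ) := by
      rw [ed, hμ]; field_simp
    have a3 : C₄ * (G ^ 4 * u ^ 2 / (d / 2)) * τ = 2 * X * (c₂ * (k ^ 2 * C₄)) := by
      have : C₄ * (G ^ 4 * u ^ 2 / (d / 2)) * τ = 2 * C₄ * G ^ 2 * (u ^ 2 * G ^ 2 * τ) / d := by
        field_simp
      rw [this, hu, eX]; field_simp
    have a4 : c₂ * (k ^ 2 * C₄) ≤ 1 / 400 := by linarith
    have a5 : 2 * X * (c₂ * (k ^ 2 * C₄)) ≤ 2 * X * (1 / 400) := by gcongr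
    have a6 : τ ^ 2 / (2 * t ^ 2) ≤ 32 * N ^ 4 := by
      rw [div_le_iff₀ (by positivity)]
      calc τ ^ 2 ≤ (8 * N ^ 2 * t) ^ 2 := by gcongr
        _ = _ := by ring
    have a7 : C₄ ^ 2 * N ^ 4 * (G ^ 2 / (c₂ * L₀)) ≤ X / 10240 := by
      rw [← mul_div_assoc, div_le_div_iff₀ (by positivity) (by norm_num), eX]
      calc C₄ ^ 2 * N ^ 4 * (X * k ^ 2) * 10240 = X * (10240 * k ^ 2 * C₄ ^ 2 * N ^ 4) := by ring
        _ ≤ _ := by gcongr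
    have a8 : C₄ ^ 2 * (τ ^ 2 * (2 * G ^ 2 / (c₂ * L₀) + μ)) / (2 * t ^ 2) ≤
        64 * (C₄ ^ 2 * N ^ 4 * (G ^ 2 / (c₂ * L₀))) + 32 * (C₄ ^ 2 * N ^ 4 * μ) := by
      calc _ = C₄ ^ 2 * (2 * G ^ 2 / (c₂ * L₀) + μ) * (τ ^ 2 / (2 * t ^ 2)) := by ring
        _ ≤ C₄ ^ 2 * (2 * G ^ 2 / (c₂ * L₀) + μ) * (32 * N ^ 4) := by gcongr
        _ = _ := by ring
    rw [a1, a2, a3]
    linarith

theorem key (hI : S_INT) (hE : S_GE) {C₄ c₄ c₂ L₀ lam e₀ a : ℝ} {m n : ℕ} {R : ℝ → ℝ → Prop}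
    (hC₄ : 1 ≤ C₄) (c0 : 0 < c₂) (c1 : c₂ ≤ c₄) (hm : 1 ≤ m)
    (c2 : c₂ * (400 * (2 ^ m) ^ 2 * C₄) ≤ 1) (hn : 1 ≤ n)
    (hL : 10240 * (2 ^ m) ^ 2 * C₄ ^ 2 * (n : ℝ) ^ 4 ≤ c₂ * L₀) (L1 : 1 ≤ L₀) (hG : GQ r g Q)
    (hT : TDB r g Q lam C₄ c₄ e₀ R) (hR : En R m τ a) (ha : 1 ≤ a) (h0 : 0 < τ) (h1 : τ ≤ r / 4)
    (h2 : 2 * τ < e₀) (hM : L₀ ^ m * a ≤ M) (hC : Cone r g Q ξ τ M) :
    ∀ z ∈ Tent r ξ τ (n ^ 2), Gs g Q z * (de r ξ τ (n ^ 2) z / τ) ^ (2 * m) * τ ^ 2 ≤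
      32768 * 2 ^ m * C₄ ^ 2 * (n : ℝ) ^ 4 * M ^ 2 := by
  have hN : (1 : ℝ) ≤ n := by exact_mod_cast hn
  have hT1 : (1 : ℝ) ≤ (n : ℝ) ^ 2 := one_le_pow₀ hN
  have hk : (2 : ℝ) ≤ 2 ^ m := le_self_pow₀ (by norm_num) (by omega)
  have ek : (2 : ℝ) ^ (2 * m) = (2 ^ m) ^ 2 := by rw [← pow_mul, mul_comm]
  generalize (2 : ℝ) ^ m = k at c2 hL hk ek ⊢
  have M1 : 1 ≤ M := (one_le_mul_of_one_le_of_one_le (one_le_pow₀ L1) ha).trans hM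
  have n4 : (1 : ℝ) ≤ (n : ℝ) ^ 4 := one_le_pow₀ hN
  have q1 : 1 ≤ C₄ ^ 2 * (n : ℝ) ^ 4 := one_le_mul_of_one_le_of_one_le (one_le_pow₀ hC₄) n4
  obtain ⟨B₀, hB⟩ : ∃ B₀, B₀ = 32768 * k * C₄ ^ 2 * (n : ℝ) ^ 4 := ⟨_, rfl⟩
  have B1 : 5120 * C₄ ^ 2 * (n : ℝ) ^ 4 ≤ B₀ := by rw [hB]; nlinarith
  have B2 : 32768 * k ≤ B₀ := by rw [hB]; nlinarith
  rw [← hB]
  obtain ⟨y, hy, hmax⟩ := ex_mx (ξ := ξ) hG h0 h1 hT1 (2 * m)
  refine fun z hz => (mul_le_mul_of_nonneg_right (hmax z hz) (by positivity)).trans ?_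
  by_contra hcon
  rw [not_le] at hcon
  have d1 : de r ξ τ (n ^ 2) y ≤ τ / 2 - |y.re - ξ| := min_le_left _ _
  have d2 : de r ξ τ (n ^ 2) y ≤ r - y.im - τ / (8 * n ^ 2) := min_le_right _ _
  have d0 : 0 ≤ de r ξ τ (n ^ 2) y := le_min (by linarith [hy.1]) (by linarith [hy.2.1])
  generalize de r ξ τ (n ^ 2) y = d at hmax hcon d0 d1 d2
  have d3 : 2 * d ≤ τ := by linarith [abs_nonneg (y.re - ξ)]
  obtain ⟨G, G0, eG⟩ : ∃ G : ℝ, 0 ≤ G ∧ G ^ 2 = k ^ 2 * Gs g Q y :=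
    ⟨k * √(Gs g Q y), by positivity, by rw [mul_pow, Real.sq_sqrt (gs_nn g Q y)]⟩
  have M2 : 1 ≤ M ^ 2 := one_le_pow₀ M1
  have k2 : 4 ≤ k ^ 2 := by nlinarith
  have p0 : B₀ ≤ B₀ * M ^ 2 := le_mul_of_one_le_right (by linarith) M2
  have δ0 : 0 ≤ d / τ := by positivity
  have δ1 : d / τ ≤ 1 := by rw [div_le_one h0]; linarith
  have D1 : (d / τ) ^ m ≤ d / τ := pow_le_of_le_one δ0 δ1 (by omega)
  have D0 : 0 ≤ (d / τ) ^ m := by positivity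
  have eD : (d / τ) ^ (2 * m) = ((d / τ) ^ m) ^ 2 := by rw [← pow_mul, mul_comm]
  have a1 : k ^ 2 * B₀ * M ^ 2 ≤ (G * (τ * (d / τ) ^ m)) ^ 2 := by
    calc k ^ 2 * B₀ * M ^ 2 = k ^ 2 * (B₀ * M ^ 2) := by ring
      _ ≤ k ^ 2 * (Gs g Q y * (d / τ) ^ (2 * m) * τ ^ 2) := by gcongr
      _ = _ := by rw [eD, mul_pow G, eG]; ring
  have a2 : τ * (d / τ) ^ m ≤ d := by
    calc _ ≤ τ * (d / τ) := by gcongr
      _ = d := by field_simp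
  have a3 : k ^ 2 * B₀ * M ^ 2 ≤ (G * d) ^ 2 := a1.trans (by gcongr)
  have a4 : k ^ 2 * B₀ * M ^ 2 ≤ G ^ 2 * τ ^ 2 := by
    rw [← mul_pow]
    exact a3.trans (by gcongr; linarith)
  have a5 : 4 * (B₀ * M ^ 2) ≤ k ^ 2 * B₀ * M ^ 2 := by
    rw [mul_assoc]
    gcongr
    linarith
  have a6 : M ^ 2 ≤ B₀ * M ^ 2 := le_mul_of_one_le_left (by positivity) (by linarith)
  have a7 : 2 ≤ G * d := le_of_sq_le_sq (by linarith) (by positivity)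
  have dp : 0 < d := lt_of_le_of_ne d0 (by rintro rfl; linarith)
  have Gp : 0 < G := lt_of_le_of_ne G0 (by rintro rfl; linarith)
  have hp : 0 < τ / (8 * (n : ℝ) ^ 2) := by positivity
  obtain ⟨u, u0, hu⟩ : ∃ u : ℝ, 0 < u ∧ u ^ 2 * G ^ 2 * τ = c₂ * d :=
    ⟨√(c₂ * d / (G ^ 2 * τ)), by positivity, by rw [Real.sq_sqrt (by positivity)]; field_simp⟩
  obtain ⟨b2, b3, b3', b4⟩ := num0 hC₄ c0 c1 hk c2 hN h0 (t := r - y.im)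
    (by have := hy.2.1; rw [div_le_iff₀ (by positivity)] at this; linarith) dp d3 hL B1 a4 Gp u0 hu
  have Dp : 0 < (d / τ) ^ m := by positivity
  have l1 : 1 ≤ L₀ / (d / τ) := by
    rw [le_div_iff₀ (by positivity)]
    linarith
  have l2 : u * a * (L₀ / (d / τ)) ^ m ≤ τ := by
    have f1 : M ≤ G * (τ * (d / τ) ^ m) := le_of_sq_le_sq (by linarith) (by positivity)
    rw [div_pow, ← mul_div_assoc, div_le_iff₀ Dp]
    calc u * a * L₀ ^ m = u * (L₀ ^ m * a) := by ring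
      _ ≤ u * (G * (τ * (d / τ) ^ m)) := mul_le_mul_of_nonneg_left (hM.trans f1) u0.le
      _ = u * G * (τ * (d / τ) ^ m) := by ring
      _ ≤ 1 * (τ * (d / τ) ^ m) := by gcongr; linarith
      _ = _ := one_mul _
  have l3 : 2 * τ / (L₀ / (d / τ)) = 2 * d / L₀ := by field_simp
  have l4 : u ≤ 2 * d / L₀ := by
    rw [← l3, le_div_iff₀ (by linarith)]
    have f1 : L₀ / (d / τ) ≤ (L₀ / (d / τ)) ^ m := le_self_pow₀ l1 (by omega)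
    have f2 : u * (L₀ / (d / τ)) ≤ u * a * (L₀ / (d / τ)) ^ m :=
      mul_le_mul (le_mul_of_one_le_right u0.le ha) f1 (by linarith) (by positivity)
    linarith
  have l5 : 2 * d / L₀ < e₀ := (div_le_self (by linarith) L1).trans_lt (by linarith)
  have hr := hR _ u l1 u0 l2
  rw [l3] at hr
  obtain ⟨P, hP⟩ := hT n ξ τ M u _ hn h0 h1 M1 hC l5 hr ⟨u0, l4, b3, b3'⟩
  have hW : ∀ z ∈ Tent r ξ τ (n ^ 2), d / 2 ≤ de r ξ τ (n ^ 2) z → Gs g Q z ≤ G ^ 2 := by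
    intro z hz hd
    have f1 : (d / τ / 2) ^ (2 * m) ≤ (de r ξ τ (n ^ 2) z / τ) ^ (2 * m) := by
      refine pow_le_pow_left₀ (by positivity) ?_ _
      rw [div_right_comm]
      gcongr
    have f2 := (mul_le_mul_of_nonneg_left f1 (gs_nn g Q z)).trans (hmax z hz)
    rw [div_pow _ 2, ek, ← mul_div_assoc, div_le_iff₀ (by linarith)] at f2
    refine le_of_mul_le_mul_right (f2.trans_eq ?_) (by positivity : 0 < (d / τ) ^ (2 * m))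
    rw [eG]
    ring
  have hcm : ∀ s ∈ Icc (r - y.im) τ, Cm r g Q (pt r y.re s) (d / 2) G := fun s hs =>
    calm0 hC h0 h1 hT1 hW dp d1 (by linarith [hs.1]) hs.2 (by linarith) (by linarith)
  have b5 := e1_bdq hI hG hC h0 h1 hT1 hC₄ u0 (by positivity) hP hy.1 hy.2.1 hy.2.2 hcm b2
  have b6 := hcm _ ⟨le_rfl, hy.2.2⟩
  rw [pt_self] at b5 b6
  have kp : 0 < k := by linarith
  have b7 := hE r g Q y (d / 2) G (G / (4 * k)) hG b6 (by positivity) (by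
    have f1 : k ^ 2 * (32768 * k) ≤ (G * d) ^ 2 := by
      refine le_trans ?_ a3
      rw [mul_assoc]
      exact mul_le_mul_of_nonneg_left (B2.trans p0) (by positivity)
    calc 128 * G = G / (256 * k ^ 3) * (k ^ 2 * (32768 * k)) := by field_simp; norm_num
      _ ≤ G / (256 * k ^ 3) * (G * d) ^ 2 := by gcongr
      _ = _ := by field_simp; norm_num)
  have f1 : G ^ 2 / k ^ 2 = Gs g Q y := by rw [eG]; field_simp
  have f2 : (G / (4 * k)) ^ 2 = Gs g Q y / 16 := by rw [← f1]; field_simp; norm_num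
  have f3 : 0 < Gs g Q y := by rw [← f1]; positivity
  rw [f1] at b4
  rw [f2] at b7
  linarith

end Sup0

open Sup0 in
theorem sup0 (hI : S_INT) (hE : S_GE) : S_SUP0 := by
  intro C₄ c₄ m n hC₄ hc hm hn
  have c0 : 0 < min c₄ (1 / (400 * (2 ^ m) ^ 2 * C₄)) := lt_min hc (by positivity)
  have c2 : min c₄ (1 / (400 * (2 ^ m) ^ 2 * C₄)) * (400 * (2 ^ m) ^ 2 * C₄) ≤ 1 := by
    rw [← le_div_iff₀ (by positivity)]
    exact min_le_right _ _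
  generalize hc₂ : min c₄ (1 / (400 * (2 ^ m) ^ 2 * C₄)) = c₂ at c0 c2
  have c1 : c₂ ≤ c₄ := hc₂ ▸ min_le_left _ _
  refine ⟨max 1 (10240 * (2 ^ m) ^ 2 * C₄ ^ 2 * (n : ℝ) ^ 4 / c₂) ^ m,
    32768 * 2 ^ m * C₄ ^ 2 * (n : ℝ) ^ 4 * (16 * n ^ 2) ^ (2 * m) + 2, ?_⟩
  intro r lam e₀ ξ τ M a g Q R hG hT hR ha h0 h1 h2 hA hC y y1 y2 y3
  have h := key hI hE hC₄ c0 c1 hm c2 hn
    (by rw [mul_comm c₂, ← div_le_iff₀ c0]; exact le_max_right _ _) (le_max_left _ _)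
    hG hT hR ha h0 h1 h2 hA hC
  have hN : (1 : ℝ) ≤ n := by exact_mod_cast hn
  have hT1 : (1 : ℝ) ≤ (n : ℝ) ^ 2 := one_le_pow₀ hN
  have hp : 0 < τ / (16 * (n : ℝ) ^ 2) := by positivity
  have e1 : 3 * τ / (16 * (n : ℝ) ^ 2) = 3 * (τ / (16 * (n : ℝ) ^ 2)) := by ring
  have e2 : τ / (8 * (n : ℝ) ^ 2) = 2 * (τ / (16 * (n : ℝ) ^ 2)) := by field_simp; norm_num
  have e3 : τ / (16 * (n : ℝ) ^ 2) ≤ τ / 16 := by gcongr; linarith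
  have p1 : 0 ≤ 32768 * 2 ^ m * C₄ ^ 2 * (n : ℝ) ^ 4 * (16 * n ^ 2) ^ (2 * m) * M ^ 2 := by
    positivity
  rw [add_mul]
  rcases le_total (r - y.im) τ with d | d
  · have h3 := h y ⟨by linarith, by linarith, d⟩
    have h4 : τ / (16 * (n : ℝ) ^ 2) ≤ de r ξ τ (n ^ 2) y := le_min (by linarith) (by linarith)
    have h5 : 1 ≤ de r ξ τ (n ^ 2) y / τ * (16 * (n : ℝ) ^ 2) := by
      rw [div_le_iff₀ (by positivity)] at h4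
      rw [div_mul_eq_mul_div, le_div_iff₀ h0]
      linarith
    have h6 := one_le_pow₀ (n := 2 * m) h5
    have h7 : 0 ≤ Gs g Q y * τ ^ 2 := mul_nonneg (gs_nn g Q y) (by positivity)
    calc Gs g Q y * τ ^ 2 ≤ Gs g Q y * τ ^ 2 *
          (de r ξ τ (n ^ 2) y / τ * (16 * (n : ℝ) ^ 2)) ^ (2 * m) := le_mul_of_one_le_right h7 h6
      _ = Gs g Q y * (de r ξ τ (n ^ 2) y / τ) ^ (2 * m) * τ ^ 2 * (16 * (n : ℝ) ^ 2) ^ (2 * m) := by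
        rw [mul_pow]; ring
      _ ≤ 32768 * 2 ^ m * C₄ ^ 2 * (n : ℝ) ^ 4 * M ^ 2 * (16 * (n : ℝ) ^ 2) ^ (2 * m) := by gcongr
      _ ≤ _ := by nlinarith [sq_nonneg M]
  · have h3 := cone3 hC h0 h1 d (by linarith) (by linarith)
    linarith

end Vale.Agent.P097W
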