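import Vale.Agent.P097W.E1

/-!
# P097W, row 1608: the second pass for the maximum in the tent
-/

set_option linter.all false

noncomputable section

namespace Vale.Agent.P097W

open Filter Topology Set Metric
open Vale.Agent.P097T (Strip)
open Vale.Agent.P097M Vale.Agent.P097M.SupP

namespace Sup1

theorem calm {r ξ τ K M T η s : ℝ} {g Q : ℂ → ℂ} {n : ℕ} (hT : T = (n : ℝ) ^ 2) (T1 : 1 ≤ T)
    (h0 : 0 < τ) (h1 : τ ≤ r / 4) (hK : 64 * T ≤ K) (M1 : 1 ≤ M)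
    (hB : Crude r g Q n ξ τ (K ^ 2 * M ^ 2)) (hη : |η - ξ| ≤ 3 * τ / 8) (s0 : τ / (4 * T) ≤ s)
    (s1 : s ≤ τ) : Cm r g Q (pt r η s) (τ / (64 * T)) (K * M / τ) := by
  have hp : 0 < τ / (64 * T) := by positivity
  have e1 : τ / (4 * T) = 16 * (τ / (64 * T)) := by field_simp; norm_num
  have e2 : 3 * τ / (16 * (n : ℝ) ^ 2) = 12 * (τ / (64 * T)) := by rw [← hT]; field_simp; norm_num
  have e3 : τ / (64 * T) ≤ τ / 64 := by gcongr; linarith
  have e4 : K * M / τ * (τ / (64 * T)) = K / (64 * T) * M := by field_simp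
  have e5 : 1 ≤ K / (64 * T) := by rw [le_div_iff₀ (by positivity)]; linarith
  have e6 : 1 ≤ K * M / τ * (τ / (64 * T)) := by rw [e4]; nlinarith
  rw [e1] at s0
  generalize τ / (64 * T) = ρ at *
  have near : ∀ z ∈ ball (pt r η s) ρ, |z.re - η| ≤ ρ ∧ |z.im - (r - s)| ≤ ρ := by
    intro z hz
    rw [mem_ball, dist_eq_norm] at hz
    exact ⟨(Complex.abs_re_le_norm (z - pt r η s)).trans hz.le,
      (Complex.abs_im_le_norm (z - pt r η s)).trans hz.le⟩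
  refine ⟨hp, fun z hz => ?_, fun z hz => ?_, e6⟩
  · obtain ⟨a, b⟩ := abs_le.1 (near z hz).2
    exact mem_strip (by linarith) (by linarith)
  · obtain ⟨a, b⟩ := abs_le.1 (near z hz).2
    have c : |z.re - ξ| ≤ ρ + |η - ξ| := by
      have := abs_sub_le z.re η ξ
      linarith [(near z hz).1]
    have h := hB z (by linarith) (by rw [e2]; linarith) (by linarith)
    rw [div_pow, le_div_iff₀ (by positivity), mul_pow]
    exact h

end Sup1

open Sup1 in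
/-- 1608 -/
theorem sup1 (hI : S_INT) (hE : S_GE) : S_SUP1 := by
  intro C₄ c₄ hC₄ hc
  have k : 1 ≤ C₄ ^ 2 := one_le_pow₀ hC₄
  refine ⟨100 * C₄ ^ 2, by linarith, fun m n B hm hn => ?_⟩
  have hN : (1 : ℝ) ≤ n := by exact_mod_cast hn
  obtain ⟨T, hT⟩ : ∃ T : ℝ, T = (n : ℝ) ^ 2 := ⟨_, rfl⟩
  have T1 : 1 ≤ T := hT ▸ one_le_pow₀ hN
  have T4 : (n : ℝ) ^ 4 = T ^ 2 := by rw [hT]; ring
  obtain ⟨K, hK, hKB⟩ : ∃ K : ℝ, 64 * T ≤ K ∧ B ≤ K ^ 2 := by
    refine ⟨64 * T + |B|, by linarith [abs_nonneg B], ?_⟩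
    nlinarith [abs_nonneg B, le_abs_self B]
  have K1 : 1 ≤ K := by linarith
  obtain ⟨N, N1, N2, N3, N4⟩ : ∃ N : ℝ, 1 ≤ N ∧ 40 * K ≤ N ∧ 64 * C₄ * K ^ 4 * T ≤ N ^ 2 ∧
      2 * T ^ 2 ≤ c₄ * N ^ 2 := by
    have p1 : 0 ≤ 64 * C₄ * K ^ 4 * T := by positivity
    have p2 : 0 ≤ 2 * T ^ 2 / c₄ := by positivity
    have p3 : ∀ N : ℝ, 1 ≤ N → N ≤ N ^ 2 := fun N h => by nlinarith
    refine ⟨40 * K + 64 * C₄ * K ^ 4 * T + 2 * T ^ 2 / c₄, by linarith, by linarith,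
      le_trans (by linarith) (p3 _ (by linarith)), ?_⟩
    rw [mul_comm c₄, ← div_le_iff₀ hc]
    exact le_trans (by linarith) (p3 _ (by linarith))
  have N5 : N ≤ (N ^ 2) ^ m := by
    rw [← pow_mul]
    exact le_self_pow₀ N1 (by omega)
  have N6 : 1 ≤ N ^ 2 := one_le_pow₀ N1
  have p4 : 0 ≤ 2 ^ 19 * K * T ^ 2 := by positivity
  refine ⟨(N ^ 2) ^ m + 2 ^ 19 * K * T ^ 2, ?_⟩
  intro r lam e₀ ξ τ M a g Q R hG hD hR a1 h0 h1 h2 hA hC hB y b1 b2 b3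
  have A1 : (N ^ 2) ^ m + 2 ^ 19 * K * T ^ 2 ≤ M :=
    (le_mul_of_one_le_right (by linarith) a1).trans hA
  have A2 : (N ^ 2) ^ m * a ≤ M := le_trans (by gcongr; linarith) hA
  have M1 : 1 ≤ M := by linarith
  have M2 : 0 ≤ M ^ 2 := by positivity
  rcases le_total τ (r - y.im) with d | d
  · have h3 := cone2 hC h0 h1 d (by linarith) (by linarith)
    nlinarith
  rw [← hT] at b2
  have tp : 0 < r - y.im := lt_of_lt_of_le (by positivity) b2
  have hB' : Crude r g Q n ξ τ (K ^ 2 * M ^ 2) := fun z x1 x2 x3 =>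
    (hB z x1 x2 x3).trans (by gcongr)
  have u0 : 0 < τ / (M * N) := by positivity
  have hRu := hR (N ^ 2) (τ / (M * N)) N6 u0 (by
    calc τ / (M * N) * a * (N ^ 2) ^ m = τ / (M * N) * ((N ^ 2) ^ m * a) := by ring
      _ ≤ τ / (M * N) * M := by gcongr
      _ = τ / N := by field_simp
      _ ≤ τ := div_le_self h0.le N1)
  have e1 : (τ / (M * N)) ^ 2 * M ^ 2 = τ ^ 2 / N ^ 2 := by field_simp
  obtain ⟨P, hP⟩ := hD n ξ τ M (τ / (M * N)) (2 * τ / N ^ 2) hn h0 h1 M1 hC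
    ((div_le_self (by positivity) N6).trans_lt h2) hRu ⟨u0, by
      rw [div_le_div_iff₀ (by positivity) (by positivity)]
      calc τ * N ^ 2 = τ * N * N := by ring
        _ ≤ τ * N * (2 * M) := by gcongr; linarith
        _ = _ := by ring, by
      rw [T4, div_mul_eq_mul_div, div_le_iff₀ (by positivity)]
      calc 2 * τ * T ^ 2 = τ * (2 * T ^ 2) := by ring
        _ ≤ τ * (c₄ * N ^ 2) := by gcongr
        _ = _ := by ring, by
      rw [e1, T4, div_mul_eq_mul_div, div_le_iff₀ (by positivity)]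
      calc τ ^ 2 * T ^ 2 ≤ τ ^ 2 * (c₄ * N ^ 2) := by gcongr; linarith [sq_nonneg T]
        _ = _ := by ring⟩
  have hcm : ∀ s ∈ Icc (r - y.im) τ, Cm r g Q (pt r y.re s) (τ / (64 * T)) (K * M / τ) :=
    fun s hs => calm hT T1 h0 h1 hK M1 hB' b1 (b2.trans hs.1) hs.2
  have b5 := e1_bdq hI hG hC h0 h1 (hT ▸ T1) hC₄ u0 (by positivity) hP (by linarith)
    (by rw [← hT]; exact le_trans (by gcongr; norm_num) b2) d hcm (by
      rw [show τ / (M * N) * (K * M / τ) = K / N by field_simp,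
        div_le_div_iff₀ (by positivity) (by norm_num)]
      linarith)
  have b6 := hcm _ ⟨le_rfl, d⟩
  rw [pt_self] at b5 b6
  have b7 := hE r g Q y _ _ (M / τ) hG b6 (by positivity) (by
    rw [show (M / τ) ^ 3 * (τ / (64 * T)) ^ 2 = M / τ * (M * M / (4096 * T ^ 2)) by
      field_simp; norm_num, show 128 * (K * M / τ) = M / τ * (128 * K) by ring]
    gcongr
    rw [le_div_iff₀ (by positivity)]
    have : 0 ≤ (N ^ 2) ^ m := by positivity
    nlinarith)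
  have e2 : τ * (2 * τ / N ^ 2 + (τ / (M * N)) ^ 2 * M ^ 2 / τ) / (τ / (M * N)) ^ 2 =
      3 * M ^ 2 := by field_simp; norm_num
  have e3 : C₄ * ((K * M / τ) ^ 4 * (τ / (M * N)) ^ 2 / (τ / (64 * T))) * τ ≤ M ^ 2 / τ ^ 2 := by
    rw [show C₄ * ((K * M / τ) ^ 4 * (τ / (M * N)) ^ 2 / (τ / (64 * T))) * τ =
      M ^ 2 / τ ^ 2 * (64 * C₄ * K ^ 4 * T / N ^ 2) by field_simp]
    exact mul_le_of_le_one_right (by positivity) ((div_le_one (by positivity)).2 N3)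
  rw [e2] at b5
  generalize r - y.im = t at *
  have e4 : M ^ 2 / τ ^ 2 ≤ M ^ 2 / t ^ 2 := by gcongr
  have e5 : C₄ ^ 2 * (3 * M ^ 2) / (2 * t ^ 2) = 3 / 2 * (C₄ ^ 2 * (M ^ 2 / t ^ 2)) := by
    field_simp
  have e6 : M ^ 2 / t ^ 2 ≤ C₄ ^ 2 * (M ^ 2 / t ^ 2) := le_mul_of_one_le_left (by positivity) k
  have e7 : 0 ≤ M ^ 2 / t ^ 2 := by positivity
  rw [e5, mul_div_assoc] at b5
  rw [div_pow] at b7
  rw [← le_div_iff₀ (by positivity), mul_div_assoc, mul_assoc]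
  linarith

end Vale.Agent.P097W
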