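import Vale.Agent.P097W.Defs
import Vale.Agent.P097M.Td

/-!
# P097W, row 1606: the data in the tent
-/

set_option linter.all false

noncomputable section

namespace Vale.Agent.P097W

open Filter Topology Set Metric
open Vale.Agent.P097T (Strip)
open Vale.Agent.P097M Vale.Agent.P097M.Td

namespace TdAux

variable {r C u a τ k ξ : ℝ} {Lw : ℂ → ℂ → ℂ → Prop} {Y : ℂ → ℂ}

theorem xiq (hH : S_HAR) (H : Cx r C u a τ k ξ Lw Y) {g Q : ℂ → ℂ} {C₂ ρ G t : ℝ} (C2 : 0 ≤ C₂)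
    (X : LXQ r g Q C u Y C₂) (u0 : 0 < u) {y : ℂ} (ht : t = r - y.im) (h1 : |y.re - ξ| ≤ τ / 2)
    (h2 : a / 4 ≤ t) (h3 : t ≤ τ) (hm : Cm r g Q y ρ G) (hG : u * G ≤ 1 / 40) :
    0 ≤ PP C u Y y / (u ^ 2 * t ^ 2) + G ^ 4 * u ^ 2 / ρ ∧
      ‖deriv (E1 g Q) y‖ ≤ 4 * C₂ * (PP C u Y y / (u ^ 2 * t ^ 2) + G ^ 4 * u ^ 2 / ρ) := by
  obtain ⟨x, rfl, x2, x3, x4⟩ := pre hH H ht h1 h2 h3
  obtain ⟨L, a0, a1, τ1, c0, c1, u1, k1, -⟩ := H
  obtain ⟨l1, l2⟩ := abs_le.1 ((Complex.abs_im_le_norm _).trans x2)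
  rw [Complex.sub_im] at l1 l2
  have p := L.pos (Y x) (by linarith) (by linarith)
  have s : t ^ 2 ≤ 2 * (r - x.im) ^ 2 := by nlinarith
  have ρ0 := hm.pos
  have j : PP C u Y x / (u ^ 2 * (r - x.im) ^ 2) ≤ 4 * (PP C u Y (Y x) / (u ^ 2 * t ^ 2)) := by
    have : 0 < r - x.im := by linarith
    have : 0 < t := by linarith
    rw [mul_div_assoc', div_le_div_iff₀ (by positivity) (by positivity)]
    linarith [mul_le_mul x4 (mul_le_mul_of_nonneg_left s (sq_nonneg u)) (by positivity)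
      (by positivity)]
  have i2 : 0 ≤ G ^ 4 * u ^ 2 / ρ := by positivity
  refine ⟨by positivity,
    (X x _ ρ G rfl (by linarith) (by linarith) (by linarith) x3 hm hG).1.trans ?_⟩
  rw [mul_comm 4, mul_assoc]
  exact mul_le_mul_of_nonneg_left (by linarith) C2

end TdAux

open TdAux in
theorem tdq (hH : S_HAR) (hS : S_SUM) : S_TDQ := by
  intro C₂ C₃ lam C2 C3 l0 l1
  have w : 0 ≤ 16 * (1 + C₃) / lam ^ 2 := by positivity
  refine ⟨4 * C₂ + 8 * (1 + C₃) + 16 * (1 + C₃) / lam ^ 2, 1 / (10 ^ 5 * (1 + C₃)), by linarith,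
    by positivity, ?_⟩
  intro r g Q Y Lw n C ξ τ M u L X hn τ0 τ1 ⟨u0, ue, s1, s2⟩ hc
  have n1 : (1 : ℝ) ≤ n := Nat.one_le_cast.2 hn
  obtain ⟨a, ha⟩ : ∃ a, a = τ / (2 * n ^ 2) := ⟨_, rfl⟩
  obtain ⟨B, hB⟩ : ∃ B, B = C * u + u ^ 2 * M ^ 2 / τ := ⟨_, rfl⟩
  have a0 : 0 < a := by rw [ha]; positivity
  have e : τ = 2 * n ^ 2 * a := by rw [ha]; field_simp
  have a1 : 2 * a ≤ τ := by linarith [mul_le_mul_of_nonneg_right (one_le_pow₀ (n := 2) n1) a0.le]
  have a4 : τ / (8 * n ^ 2) = a / 4 := by rw [ha]; ring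
  have c1 : C * u ≤ B := hB ▸ le_add_of_nonneg_right (by positivity)
  have uB : u ≤ B := ue.trans c1
  have B0 := u0.trans_le uB
  have β1 : (1 + C₃) * B * τ ≤ 8 / 10 ^ 5 * a ^ 2 := by
    rw [one_div_mul_eq_div, le_div_iff₀ (by positivity)] at s1 s2
    have : B * τ = C * u * τ + u ^ 2 * M ^ 2 := by rw [hB]; field_simp
    refine le_of_mul_le_mul_right ?_ (show (0 : ℝ) < n ^ 4 by positivity)
    rw [mul_assoc _ B, this, show 8 / 10 ^ 5 * a ^ 2 * n ^ 4 = 2 / 10 ^ 5 * τ ^ 2 by rw [e]; ring]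
    linarith [mul_le_mul_of_nonneg_right s1 τ0.le]
  have c2 := mul_le_mul_of_nonneg_right C3 B0.le
  have c3 : 0 ≤ C * u := u0.le.trans ue
  have c4 := mul_le_mul_of_nonneg_left a1 (show 0 ≤ (1 + C₃) * B by positivity)
  rw [← hB] at hc ⊢
  have H : Cx r C u a τ ((1 + C₃) * B) ξ Lw Y := ⟨L, a0, a1, τ1, c3, by linarith, by linarith,
    le_of_mul_le_mul_right (by linarith) a0, β1, fun η h => ⟨by
        have := (abs_le.1 ((Complex.abs_im_le_norm _).trans (hc η h))).1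
        unfold PP
        linarith, (hc η h).trans (by linarith)⟩⟩
  have k1 := H.k1
  refine ⟨fun y ⟨_, h2, h3⟩ => L.pos y (by linarith) (by linarith),
    fun y ⟨h1, h2, h3⟩ ρ G hm hG => ?_, fun y ⟨h1, h2, h3⟩ => ?_, fun y hy η h4 h5 => ?_, ?_⟩
  · have := xiq hH H (by linarith) X u0 rfl h1 (a4 ▸ h2) h3 hm hG
    exact this.2.trans (mul_le_mul_of_nonneg_right (by linarith) this.1)
  · rw [mul_assoc]
    exact (key hH H (by linarith) (by linarith) (by linarith)).1.trans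
      ((show _ = 8 * (1 + C₃) * (τ * B) by ring).trans_le
        (mul_le_mul_of_nonneg_right (by linarith) (by positivity)))
  · rw [← ha, mul_assoc]
    have := lo hH H hy.2.2 (ha ▸ h4) (a4 ▸ h5)
    exact this.2.trans (mul_le_mul_of_nonneg_right (by linarith) this.1)
  · rw [← ha, show lam * τ / n ^ 2 = 2 * lam * a by rw [ha]; ring, sq n, mul_assoc _ _ B]
    have la := mul_le_mul_of_nonneg_right l1 a0.le
    refine (blocks _ n (fun p hp => ?_) n le_rfl).trans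
      ((show n * (16 * (2 * τ * a) / (2 * lam * a) ^ 2 * ((1 + C₃) * B)) =
        16 * (1 + C₃) / lam ^ 2 * (n ^ 3 * B) by rw [e]; field_simp).trans_le
        (mul_le_mul_of_nonneg_right (by linarith) (by positivity)))
    refine (Finset.sum_congr rfl fun i _ => ?_).trans_le
      (blk hS H (η := ξ + p * n * (2 * lam * a)) e (by positivity) (by linarith) ?_)
    · rw [Nat.cast_add, Nat.cast_mul, add_mul, add_assoc]
    · rw [add_sub_cancel_left, abs_of_nonneg (by positivity), e]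
      linarith [mul_le_mul (mul_le_mul_of_nonneg_right (Nat.cast_le.2 hp.le) (zero_le_one.trans n1))
        (show 2 * lam * a ≤ 2 * a by linarith) (by positivity) (by positivity)]

end Vale.Agent.P097W
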