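import Vale.Agent.P097W.Asm
import Vale.Agent.P097W.Odd
import Vale.Agent.P097W.Law
import Vale.Agent.P097W.Base
import Vale.Agent.P097W.Lx
import Vale.Agent.P097W.Col
import Vale.Agent.P097W.Td
import Vale.Agent.P097W.Sup0
import Vale.Agent.P097W.Sup1
import Vale.Agent.P097W.Sumq
import Vale.Agent.P097W.Rec
import Vale.Agent.P097W.Fin
import Vale.Agent.P097W.Peak
import Vale.Agent.P097W.Good
import Vale.Agent.P097M.Gq0
import Vale.Agent.P097M.Tay
import Vale.Agent.P097M.Har
import Vale.Agent.P097M.Sum
import Vale.Agent.P097M.Sd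
import Vale.Agent.P097M.Pos
import Vale.Agent.P097M.Int
import Vale.Agent.P097M.Ge

/-!
# P097W: the moments relative to a weight, closed
-/

set_option linter.all false

namespace Vale.Agent.P097W

open Vale.Agent.P097M

theorem h2w : Spec_H2W :=
  h2w_of gq0 (lawq tay odd) (baseq pos har) (lxq har sd) (colq vint) (tdq har psum) (sup0 vint ge)
    (sup1 vint ge) (sumq vint ge) (finf recf)

end Vale.Agent.P097W
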