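import Vale.Agent.P097W.Defs
import Vale.Agent.P097M.Asm

/-!
# P097W: assembly of the moments
-/

set_option linter.all false

noncomputable section

namespace Vale.Agent.P097W

open Filter Topology Set Metric
open Vale.Agent.P097T (Strip)
open Vale.Agent.P097Top (Cur law)
open Vale.Agent.P097M

theorem TDq.mono {r lam C₄ ξ τ B B' u D : ℝ} {g Q : ℂ → ℂ} {n : ℕ} {P : ℂ → ℝ}
    (h : TDq r g Q lam C₄ n ξ τ B u P) (hC : 1 ≤ C₄) (hτ : 0 < τ) (hn : 1 ≤ n) (hD : 1 ≤ D)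
    (hB : B ≤ D * B') : TDq r g Q lam (D * C₄) n ξ τ B' u P := by
  have hn' : (0 : ℝ) < n := by exact_mod_cast hn
  have e : C₄ ≤ D * C₄ := le_mul_of_one_le_left (by linarith) hD
  have tp : ∀ y ∈ Tent r ξ τ (n ^ 2), 0 < r - y.im := fun y hy =>
    lt_of_lt_of_le (by positivity) hy.2.1
  refine ⟨h.nn, fun y hy ρ G c k => ?_, fun y hy => ?_, fun y hy η a b => ?_, ?_⟩
  · have := c.pos
    have := h.nn y hy
    exact (h.xi y hy ρ G c k).trans (by gcongr)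
  · calc _ ≤ _ := h.up y hy
      _ ≤ C₄ * τ * (D * B') := by gcongr
      _ = _ := by ring
  · have k := h.lo y hy η a b
    have t0 := tp y hy
    have p0 := h.nn y hy
    have q0 : 0 ≤ C₄ * (r - y.im) * P (pt r η (τ / (2 * n ^ 2))) := le_trans (by positivity) k
    calc _ ≤ _ := k
      _ ≤ D * (C₄ * (r - y.im) * P (pt r η (τ / (2 * n ^ 2)))) := le_mul_of_one_le_left q0 hD
      _ = _ := by ring
  · calc _ ≤ _ := h.sum
      _ ≤ C₄ * n ^ 3 * (D * B') := by gcongr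
      _ = _ := by ring

theorem tdb_of (hL : S_LAWQ) (hB : S_BASEQ) (hX : S_LXQ) (hC : S_COLQ) (hT : S_TDQ)
    {r c lam : ℝ} {θ H Q : ℂ → ℂ} (K : Cur r c θ H Q) (G : GQ r (deriv θ) Q)
    (l0 : 0 < lam) (l1 : lam ≤ 1 / 8) : ∃ C₄ c₄ e₀ : ℝ, 1 ≤ C₄ ∧ 0 < c₄ ∧ 0 < e₀ ∧
      TDB r (deriv θ) Q lam C₄ c₄ e₀ (Rch θ H r) := by
  obtain ⟨CL, L1, hL⟩ := hL
  obtain ⟨C', e₁, c1, e1, hB⟩ := hB r K.rpos
  obtain ⟨C₂, c2, hX⟩ := hX CL L1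
  obtain ⟨C₃, c₃, c3, c3', hC⟩ := hC r C₂ K.rpos c2
  obtain ⟨C₄, c₄, c4, c4', hT⟩ := hT C₂ C₃ lam c2 c3 l0 l1
  have C0 : 0 < C' := by linarith
  refine ⟨C' * C₄, min c₃ c₄ / C', e₁, one_le_mul_of_one_le_of_one_le c1 c4,
    div_pos (lt_min c3' c4') C0, e1, fun n ξ τ M u e hn t0 t1 hM hc he ⟨Y, Lf⟩ hs => ?_⟩
  obtain ⟨u0, ue, s1, s2⟩ := hs
  obtain ⟨C, rfl⟩ : ∃ C, e = C * u := ⟨e / u, by field_simp⟩
  have C1 : 1 ≤ C := le_of_mul_le_mul_right (by linarith) u0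
  have C2 : 1 ≤ C' * C := one_le_mul_of_one_le_of_one_le c1 C1
  have F := hB θ H Y u C u0 C1 he Lf
  have X := hX r _ u _ Q Y _ u0 (by linarith) (hL r c θ H Q K) F
  have n1 : (1 : ℝ) ≤ (n : ℝ) ^ 4 := one_le_pow₀ (by exact_mod_cast hn)
  have m0 : 0 < min c₃ c₄ := lt_min c3' c4'
  have a1 : C' * C * u * (n : ℝ) ^ 4 ≤ min c₃ c₄ * τ := by
    rw [div_mul_eq_mul_div, le_div_iff₀' C0] at s1
    linarith
  have a2 : u ^ 2 * M ^ 2 * (n : ℝ) ^ 4 ≤ min c₃ c₄ * τ ^ 2 :=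
    s2.trans (by gcongr; exact div_le_self m0.le c1)
  have sm : Smq (min c₃ c₄) n τ M u (C' * C * u) := ⟨u0, le_mul_of_one_le_left u0.le C2, a1, a2⟩
  have B := hC _ Q Y _ _ ξ τ M u G F X u0 C2 t0 t1 hM hc
    (((le_mul_of_one_le_right (by positivity) n1).trans a1).trans (by gcongr; exact min_le_left _ _))
    (((le_mul_of_one_le_right (by positivity) n1).trans a2).trans (by gcongr; exact min_le_left _ _))
  refine ⟨_, (hT r _ Q Y _ n _ ξ τ M u F X hn t0 t1 (sm.mono (min_le_right _ _) t0) B).mono c4 t0 hn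
    c1 ?_⟩
  have : u ^ 2 * M ^ 2 / τ ≤ C' * (u ^ 2 * M ^ 2 / τ) := le_mul_of_one_le_left (by positivity) c1
  rw [mul_add, mul_assoc]
  linarith

theorem h2w_of (h0 : S_GQ0) (hL : S_LAWQ) (hB : S_BASEQ) (hX : S_LXQ) (hC : S_COLQ) (hT : S_TDQ)
    (hS₀ : S_SUP0) (hS : S_SUP1) (hK : S_SUMQ) (hF : S_FINF) : Spec_H2W := by
  intro r c τ₀ θ H Q m K m1 t0
  have G := h0 r c θ H Q K
  have hr := K.rpos
  obtain ⟨n₀, hn⟩ := exists_nat_ge (8 / r)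
  have h8 : 8 ≤ r * n₀ := by rwa [div_le_iff₀' hr] at hn
  have l0 : 0 < 1 / (r * n₀) := by positivity
  have l1 : 1 / (r * n₀) ≤ 1 / 8 := one_div_le_one_div_of_le (by norm_num) h8
  obtain ⟨C₄, c₄, e₀, c4, c4', e0, A⟩ := tdb_of hL hB hX hC hT K G l0 l1
  obtain ⟨C₁, c1, hS⟩ := hS C₄ c₄ c4 c4'
  refine hF r _ Q n₀ _ G h8 (fun a ha => ha.1) ⟨C₁, c1, fun ε ε0 => ?_⟩
  obtain ⟨L, A₂, L1, hK⟩ := hK C₄ c₄ C₁ ε m c4 c4' c1 ε0 m1
  obtain ⟨A₀, B, hS₀⟩ := hS₀ C₄ c₄ m (2 ^ L) c4 c4' m1 Nat.one_le_two_pow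
  obtain ⟨A₁, hS⟩ := hS m (2 ^ L) B m1 Nat.one_le_two_pow
  refine ⟨L, max A₀ (max A₁ A₂), min (min (r / 4) τ₀) (e₀ / 4), L1,
    lt_min (lt_min (by positivity) t0) (by positivity), fun a ha ξ τ M τ0 τ1 hM hc => ?_⟩
  have a1 := τ1.trans ((min_le_left _ _).trans (min_le_left _ _))
  have a2 := τ1.trans ((min_le_left _ _).trans (min_le_right _ _))
  have a3 : 2 * τ < e₀ := by linarith [τ1.trans (min_le_right _ _)]
  have w := ha.1.1 τ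
  have E := ha.2 τ τ0 a2
  have k : ∀ {x : ℝ}, x ≤ max A₀ (max A₁ A₂) → x * a τ ≤ M := fun hx => le_trans (by gcongr) hM
  have s := hS r _ e₀ ξ τ M _ _ Q _ G A E w τ0 a1 a3
    (k ((le_max_left _ _).trans (le_max_right _ _))) hc
    (hS₀ r _ e₀ ξ τ M _ _ Q _ G A E w τ0 a1 a3 (k (le_max_left _ _)) hc)
  exact ⟨s, hK r _ e₀ ξ τ M _ _ Q _ G l0 l1 A E w τ0 a1 a3
    (k ((le_max_right _ _).trans (le_max_right _ _))) hc s⟩

end Vale.Agent.P097W
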