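import Vale.Agent.P097W.Defs
import Vale.Agent.P097M.Sup

/-!
# P097W: the bound of `E1` in the tent
-/

set_option linter.all false

noncomputable section

namespace Vale.Agent.P097W

open Filter Topology Set Metric
open Vale.Agent.P097T (Strip)
open Vale.Agent.P097M Vale.Agent.P097M.SupP

variable {r ξ τ M : ℝ} {g Q : ℂ → ℂ}

theorem e1_bdq (hI : S_INT) (hG : GQ r g Q) (hC : Cone r g Q ξ τ M) (h0 : 0 < τ) (h1 : τ ≤ r / 4)
    {n : ℕ} (hT : 1 ≤ (n : ℝ) ^ 2) {lam C₄ B u ρ G η t : ℝ} {P : ℂ → ℝ} (hC₄ : 1 ≤ C₄)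
    (u0 : 0 < u) (B0 : 0 ≤ B) (hP : TDq r g Q lam C₄ n ξ τ B u P) (hη : |η - ξ| ≤ τ / 2)
    (t0 : τ / (8 * n ^ 2) ≤ t) (t1 : t ≤ τ) (hcm : ∀ s ∈ Icc t τ, Cm r g Q (pt r η s) ρ G)
    (hu : u * G ≤ 1 / 40) :
    ‖E1 g Q (pt r η t)‖ ≤
      2 * M ^ 2 / τ ^ 2 + C₄ ^ 2 * (τ * B / u ^ 2) / (2 * t ^ 2) + C₄ * (G ^ 4 * u ^ 2 / ρ) * τ := by
  have hp : 0 < τ / (8 * (n : ℝ) ^ 2) := by positivity
  have tp : 0 < t := hp.trans_le t0
  have ρ0 : 0 < ρ := (hcm t ⟨le_rfl, t1⟩).pos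
  set α := C₄ ^ 2 * (τ * B / u ^ 2) with hα
  set β := C₄ * (G ^ 4 * u ^ 2 / ρ) with hβ
  have α0 : 0 ≤ α := by positivity
  have β0 : 0 ≤ β := by positivity
  have h := hI (E1 g Q) r η t τ (fun s => -(α / 2) * (s ^ 2)⁻¹ + β * s)
    (fun s => α / s ^ 3 + β) t1 fun s hs => by
      have s0 : 0 < s := tp.trans_le hs.1
      have hm : pt r η s ∈ Tent r ξ τ (n ^ 2) :=
        ⟨hη, by rw [pt_im, sub_sub_cancel]; exact t0.trans hs.1, by
          rw [pt_im, sub_sub_cancel]; exact hs.2⟩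
      have hn := (open_strip r).mem_nhds (tent_sub h0 h1 hT hm)
      refine ⟨?_, ?_, ?_⟩
      · exact (hG.dQ.differentiableAt hn).add (((hG.dg.differentiableAt hn).pow 2).div_const 8)
      · have a1 := ((hasDerivAt_pow 2 s).inv (pow_ne_zero 2 s0.ne')).const_mul (-(α / 2))
        have a2 := (hasDerivAt_id s).const_mul β
        refine (a1.add a2).congr_deriv ?_
        simp only [Nat.cast_ofNat, Nat.add_one_sub_one, pow_one, mul_one]
        field_simp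
      · have a1 := hP.xi _ hm ρ G (hcm s hs) hu
        have a2 := hP.up _ hm
        rw [pt_im, sub_sub_cancel] at a1 a2
        refine a1.trans ?_
        have a3 : P (pt r η s) / (u ^ 2 * s ^ 2) ≤ C₄ * (τ * B / u ^ 2) / s ^ 3 := by
          rw [div_le_div_iff₀ (by positivity) (by positivity)]
          have e : C₄ * (τ * B / u ^ 2) * (u ^ 2 * s ^ 2) = C₄ * τ * B * s ^ 2 := by field_simp
          rw [e, pow_succ' s 2, ← mul_assoc]
          exact mul_le_mul_of_nonneg_right a2 (by positivity)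
        calc _ ≤ C₄ * (C₄ * (τ * B / u ^ 2) / s ^ 3 + G ^ 4 * u ^ 2 / ρ) := by gcongr
          _ = _ := by rw [hα, hβ]; ring
  have b1 : ‖E1 g Q (pt r η τ)‖ ≤ 2 * M ^ 2 / τ ^ 2 := by
    refine (e1_le g Q _).trans ?_
    rw [le_div_iff₀ (by positivity)]
    exact cone3 hC h0 h1 (by simp) (by simp; linarith) (by rw [pt_re]; linarith)
  have b2 := norm_le_insert' (E1 g Q (pt r η t)) (E1 g Q (pt r η τ))
  have b3 : 0 ≤ α / 2 * (τ ^ 2)⁻¹ := by positivity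
  have b4 : 0 ≤ β * t := by positivity
  have b5 : α / (2 * t ^ 2) = α / 2 * (t ^ 2)⁻¹ := by field_simp
  rw [b5]
  linarith

end Vale.Agent.P097W
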